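import Mathlib

namespace Vale.Agent.P238

open Finset
open scoped ComplexConjugate

lemma parseval {G : Type} [AddCommGroup G] [Fintype G] (a : AddChar G ℂ → ℂ) :
    ∑ u : G, ‖∑ ψ : AddChar G ℂ, a ψ * ψ u‖ ^ 2 =
      (Fintype.card G : ℝ) * ∑ ψ : AddChar G ℂ, ‖a ψ‖ ^ 2 := by
  classical
  have orth : ∀ ψ φ : AddChar G ℂ, ∑ u : G, ψ u * conj (φ u) =
      if ψ = φ then (Fintype.card G : ℂ) else 0 := by
    intro ψ φ
    have h := AddChar.sum_eq_ite (ψ - φ)
    simp only [AddChar.sub_apply, AddChar.map_neg_eq_conj, sub_eq_zero] at h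
    exact h
  apply Complex.ofReal_injective
  push_cast
  simp_rw [← Complex.mul_conj', map_sum, Finset.sum_mul_sum]
  rw [Finset.sum_comm, Finset.mul_sum]
  refine Finset.sum_congr rfl fun ψ _ => ?_
  rw [Finset.sum_comm]
  have : ∀ φ : AddChar G ℂ, ∑ u : G, a ψ * ψ u * conj (a φ * φ u) =
      a ψ * conj (a φ) * ∑ u : G, ψ u * conj (φ u) := by
    intro φ
    rw [Finset.mul_sum]
    refine Finset.sum_congr rfl fun u _ => ?_
    rw [map_mul]; ring
  simp_rw [this, orth]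
  simp [mul_comm]

lemma energy_eq {G : Type} [AddCommGroup G] [Fintype G] (f : G → ℝ) :
    ∃ c : AddChar G ℂ → ℝ, (∀ ψ, 0 ≤ c ψ) ∧ ∀ z : G,
      ∑ u : G, (f (u + z) - f u) ^ 2 = ∑ ψ : AddChar G ℂ, c ψ * ‖1 - ψ z‖ ^ 2 := by
  classical
  set b := AddChar.complexBasis G
  set F : G → ℂ := fun u => (f u : ℂ)
  have hF : ∀ u, F u = ∑ ψ : AddChar G ℂ, b.repr F ψ * ψ u := by
    intro u
    have := congrFun (b.sum_repr F) u
    rw [← this]
    simp [b, Finset.sum_apply]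
  refine ⟨fun ψ => (Fintype.card G : ℝ) * ‖b.repr F ψ‖ ^ 2, fun ψ => by positivity, fun z => ?_⟩
  have h1 : ∀ u, (f (u + z) - f u) ^ 2 =
      ‖∑ ψ : AddChar G ℂ, (b.repr F ψ * (ψ z - 1)) * ψ u‖ ^ 2 := by
    intro u
    have : ∑ ψ : AddChar G ℂ, (b.repr F ψ * (ψ z - 1)) * ψ u = F (u + z) - F u := by
      rw [hF (u + z), hF u, ← Finset.sum_sub_distrib]
      refine Finset.sum_congr rfl fun ψ _ => ?_
      rw [AddChar.map_add_eq_mul]; ring
    rw [this]
    simp only [F]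
    rw [← Complex.ofReal_sub, Complex.norm_real, Real.norm_eq_abs, sq_abs]
  simp_rw [h1]
  rw [parseval, Finset.mul_sum]
  refine Finset.sum_congr rfl fun ψ _ => ?_
  rw [norm_mul, mul_pow, norm_sub_rev (ψ z)]; ring

/-- The quadratic Poincare inequality from the inequality on characters. -/
lemma poincare_sq {G ι : Type} [AddCommGroup G] [Fintype G] [Fintype ι] (z : G) (γ : ι → G)
    (w : ι → ℝ)
    (h : ∀ ψ : AddChar G ℂ, ‖1 - ψ z‖ ^ 2 ≤ ∑ i, w i * ‖1 - ψ (γ i)‖ ^ 2) (f : G → ℝ) :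
    ∑ u : G, (f (u + z) - f u) ^ 2 ≤ ∑ i, w i * ∑ u : G, (f (u + γ i) - f u) ^ 2 := by
  obtain ⟨c, hc, hE⟩ := energy_eq f
  simp_rw [hE, Finset.mul_sum]
  rw [Finset.sum_comm]
  refine Finset.sum_le_sum fun ψ _ => ?_
  calc c ψ * ‖1 - ψ z‖ ^ 2 ≤ c ψ * ∑ i, w i * ‖1 - ψ (γ i)‖ ^ 2 :=
        mul_le_mul_of_nonneg_left (h ψ) (hc ψ)
    _ = _ := by rw [Finset.mul_sum]; refine Finset.sum_congr rfl fun i _ => by ring

open MeasureTheory in
lemma layer_cake (a b : ℝ) :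
    Integrable (fun t : ℝ => ((if t < a then (1 : ℝ) else 0) - (if t < b then 1 else 0)) ^ 2) ∧
    ∫ t : ℝ, ((if t < a then (1 : ℝ) else 0) - (if t < b then 1 else 0)) ^ 2 = |a - b| := by
  have key : (fun t : ℝ => ((if t < a then (1 : ℝ) else 0) - (if t < b then 1 else 0)) ^ 2) =
      (Set.Ico (min a b) (max a b)).indicator (fun _ => (1 : ℝ)) := by
    ext t
    simp only [Set.indicator, Set.mem_Ico, min_le_iff, lt_max_iff]
    by_cases h1 : t < a <;> by_cases h2 : t < b <;> simp [h1, h2, not_lt.1, not_le.2]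
  rw [key]
  refine ⟨?_, ?_⟩
  · exact (integrable_indicator_iff measurableSet_Ico).2 (integrableOn_const (by simp))
  · rw [integral_indicator measurableSet_Ico]
    simp [max_sub_min_eq_abs', abs_sub_comm]

open MeasureTheory in
/-- The same inequality for absolute values, by the layer-cake formula. -/
lemma poincare_abs {G ι : Type} [AddCommGroup G] [Fintype G] [Fintype ι] (z : G) (γ : ι → G)
    (w : ι → ℝ)
    (h : ∀ ψ : AddChar G ℂ, ‖1 - ψ z‖ ^ 2 ≤ ∑ i, w i * ‖1 - ψ (γ i)‖ ^ 2) (f : G → ℝ) :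
    ∑ u : G, |f (u + z) - f u| ≤ ∑ i, w i * ∑ u : G, |f (u + γ i) - f u| := by
  have hint : ∀ g : G, Integrable (fun t : ℝ => ∑ u : G,
      ((if t < f (u + g) then (1 : ℝ) else 0) - (if t < f u then 1 else 0)) ^ 2) :=
    fun g => integrable_finsetSum _ fun u _ => (layer_cake _ _).1
  have hval : ∀ g : G, ∫ t : ℝ, ∑ u : G,
      ((if t < f (u + g) then (1 : ℝ) else 0) - (if t < f u then 1 else 0)) ^ 2 =
      ∑ u : G, |f (u + g) - f u| := by
    intro g
    rw [integral_finsetSum _ fun u _ => (layer_cake _ _).1]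
    exact Finset.sum_congr rfl fun u _ => (layer_cake _ _).2
  simp_rw [← hval, ← integral_const_mul]
  rw [← integral_finsetSum _ fun i _ => (hint (γ i)).const_mul (w i)]
  refine integral_mono (hint z)
    (integrable_finsetSum _ fun i _ => (hint (γ i)).const_mul (w i)) fun t => ?_
  exact poincare_sq z γ w h (fun u => if t < f u then 1 else 0)

lemma hasSum_l1 (x y : lp (fun _ : ℕ => ℝ) 1) : HasSum (fun j => |x j - y j|) ‖x - y‖ := by
  have := lp.hasSum_norm (p := 1) (by simp) (x - y)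
  simpa using this

/-- The Poincare inequality for maps into ℓ₁. -/
lemma poincare_l1 {G ι : Type} [AddCommGroup G] [Fintype G] [Fintype ι] (z : G) (γ : ι → G)
    (w : ι → ℝ)
    (h : ∀ ψ : AddChar G ℂ, ‖1 - ψ z‖ ^ 2 ≤ ∑ i, w i * ‖1 - ψ (γ i)‖ ^ 2)
    (F : G → lp (fun _ : ℕ => ℝ) 1) :
    ∑ u : G, ‖F (u + z) - F u‖ ≤ ∑ i, w i * ∑ u : G, ‖F (u + γ i) - F u‖ := by
  have hs : ∀ g : G, HasSum (fun j => ∑ u : G, |F (u + g) j - F u j|)
      (∑ u : G, ‖F (u + g) - F u‖) := fun g => hasSum_sum fun u _ => hasSum_l1 _ _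
  refine hasSum_le (fun j => poincare_abs z γ w h (fun u => F u j)) (hs z) ?_
  exact hasSum_sum fun i _ => (hs (γ i)).mul_left (w i)

end Vale.Agent.P238
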