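import Mathlib

namespace Vale.Agent.P238

open Finset

variable {G : Type} [AddCommGroup G] [Fintype G]

/-- Distance of a character value from one. -/
noncomputable def cN (χ : AddChar G ℂ) (a : G) : ℝ := ‖1 - χ a‖

variable (χ : AddChar G ℂ)

omit [Fintype G] in
lemma cN_nonneg (a : G) : 0 ≤ cN χ a := norm_nonneg _

omit [Fintype G] in
lemma cN_zero : cN χ 0 = 0 := by simp [cN]

lemma cN_le_two (a : G) : cN χ a ≤ 2 := by
  have := norm_sub_le (1 : ℂ) (χ a)
  rw [norm_one, AddChar.norm_apply] at this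
  unfold cN; linarith

lemma cN_add (a b : G) : cN χ (a + b) ≤ cN χ a + cN χ b := by
  unfold cN
  rw [AddChar.map_add_eq_mul]
  have : 1 - χ a * χ b = (1 - χ a) + χ a * (1 - χ b) := by ring
  rw [this]
  refine (norm_add_le _ _).trans ?_
  rw [norm_mul, AddChar.norm_apply, one_mul]

lemma cN_neg (a : G) : cN χ (-a) = cN χ a := by
  unfold cN
  rw [AddChar.map_neg_eq_conj, ← RCLike.norm_conj (1 - χ a)]
  simp

lemma cN_sub (a b : G) : cN χ (a - b) ≤ cN χ a + cN χ b := by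
  rw [sub_eq_add_neg]
  exact (cN_add χ _ _).trans (by rw [cN_neg])

lemma cN_nsmul (n : ℕ) (a : G) : cN χ (n • a) ≤ n * cN χ a := by
  induction n with
  | zero => simp [cN_zero]
  | succ n ih =>
    rw [succ_nsmul]
    refine (cN_add χ _ _).trans ?_
    push_cast; linarith

lemma cN_sum {ι : Type} (s : Finset ι) (a : ι → G) :
    cN χ (∑ i ∈ s, a i) ≤ ∑ i ∈ s, cN χ (a i) := by
  classical
  induction s using Finset.induction_on with
  | empty => simp [cN_zero]
  | insert i s hi ih =>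
    rw [sum_insert hi, sum_insert hi]
    exact (cN_add χ _ _).trans (by linarith)

lemma cN_gap (p : ℕ) (hp : 0 < p) (a : G) (h : p * cN χ a ≤ 1) : cN χ a ≤ cN χ (p • a) := by
  have e : 1 - χ (p • a) = (1 - χ a) * ∑ i ∈ range p, χ a ^ i := by
    rw [AddChar.map_nsmul_eq_pow, mul_comm, geom_sum_mul_neg]
  have hre : 1 ≤ (∑ i ∈ range p, χ a ^ i).re := by
    obtain ⟨p, rfl⟩ : ∃ q, p = q + 1 := ⟨p - 1, by omega⟩
    rw [sum_range_succ', Complex.add_re, Complex.re_sum]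
    have : 0 ≤ ∑ i ∈ range p, (χ a ^ (i + 1)).re := by
      refine sum_nonneg fun i hi => ?_
      have h1 := cN_nsmul χ (i + 1) a
      have h2 : ((i + 1 : ℕ) : ℝ) * cN χ a ≤ ((p + 1 : ℕ) : ℝ) * cN χ a := by
        refine mul_le_mul_of_nonneg_right ?_ (cN_nonneg χ a)
        have := mem_range.1 hi
        exact_mod_cast (by omega : i + 1 ≤ p + 1)
      have h3 : ‖1 - χ a ^ (i + 1)‖ ≤ 1 := by
        rw [← AddChar.map_nsmul_eq_pow]; exact h1.trans (h2.trans h)
      have h4 := Complex.re_le_norm (1 - χ a ^ (i + 1))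
      rw [Complex.sub_re, Complex.one_re] at h4
      linarith
    simp only [pow_zero, Complex.one_re]
    linarith
  unfold cN
  rw [e, norm_mul]
  have := hre.trans (Complex.re_le_norm _)
  exact le_mul_of_one_le_right (norm_nonneg _) this

lemma cN_sq (a : G) : cN χ a ^ 2 = 2 - 2 * (χ a).re := by
  unfold cN
  have h := AddChar.norm_apply χ a
  have h2 : ‖χ a‖ ^ 2 = (χ a).re ^ 2 + (χ a).im ^ 2 := by
    rw [Complex.sq_norm, Complex.normSq_apply]; ring
  rw [Complex.sq_norm, Complex.normSq_apply]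
  simp only [Complex.sub_re, Complex.one_re, Complex.sub_im, Complex.one_im]
  rw [h] at h2
  nlinarith

lemma cN_shift (s : ℕ) (hs : 0 < s) (g : G)
    (h : ∑ t : Fin s, cN χ ((t : ℕ) • g) ^ 2 < s) : cN χ g ≤ 4 / s := by
  by_contra hc
  push Not at hc
  have hs' : (0 : ℝ) < s := by exact_mod_cast hs
  have e : (1 - χ g) * ∑ i ∈ range s, χ g ^ i = 1 - χ (s • g) := by
    rw [AddChar.map_nsmul_eq_pow, mul_comm, geom_sum_mul_neg]
  have h1 : cN χ g * ‖∑ i ∈ range s, χ g ^ i‖ ≤ 2 := by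
    unfold cN
    rw [← norm_mul, e]
    exact cN_le_two χ _
  have h2 : ‖∑ i ∈ range s, χ g ^ i‖ ≤ s / 2 := by
    have h3 : 4 / (s : ℝ) * ‖∑ i ∈ range s, χ g ^ i‖ ≤ 2 :=
      (mul_le_mul_of_nonneg_right hc.le (norm_nonneg _)).trans h1
    rw [div_mul_eq_mul_div, div_le_iff₀ hs'] at h3
    linarith
  have h4 : ∑ t : Fin s, cN χ ((t : ℕ) • g) ^ 2 = 2 * s - 2 * (∑ i ∈ range s, χ g ^ i).re := by
    simp_rw [cN_sq, AddChar.map_nsmul_eq_pow]
    rw [Finset.sum_sub_distrib, ← Finset.mul_sum, Complex.re_sum,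
      Fin.sum_univ_eq_sum_range (fun i => (χ g ^ i).re) s]
    simp [mul_comm]
  have h5 := Complex.re_le_norm (∑ i ∈ range s, χ g ^ i)
  linarith

lemma cN_uniform (h : ∑ a : G, cN χ a ^ 2 < 2 * Fintype.card G) (a : G) : χ a = 1 := by
  classical
  by_cases h0 : χ = 0
  · simp [h0]
  · exfalso
    have h1 := AddChar.sum_eq_ite χ
    rw [if_neg h0] at h1
    simp_rw [cN_sq] at h
    rw [Finset.sum_sub_distrib, ← Finset.mul_sum, ← Complex.re_sum, h1] at h
    simp [mul_comm] at h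

lemma bezout (p R : ℕ) (hp : p.Prime) (h : Nat.Coprime R p) :
    ∃ x y : ℕ, x ≤ p ∧ y ≤ R ∧ x * R = 1 + y * p := by
  obtain ⟨x, hx, hxR⟩ := Nat.exists_mul_mod_eq_one_of_coprime h hp.one_lt
  refine ⟨x, R * x / p, hx.le, ?_, ?_⟩
  · apply Nat.div_le_of_le_mul
    rw [mul_comm p R]
    exact Nat.mul_le_mul_left _ hx.le
  · have := Nat.mod_add_div (R * x) p
    rw [hxR] at this
    rw [mul_comm x R, mul_comm _ p]
    exact this.symm

/-- The Chinese remainder step. -/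
lemma cN_crt {K : ℕ} (p : Fin K → ℕ) (hp : ∀ k, (p k).Prime) (hinj : Function.Injective p)
    (Y : ℕ) (hY : ∀ k, p k ≤ Y) (a : Fin K → G) (η ε : ℝ) (hη : 0 ≤ η) (hε : 0 ≤ ε) (γ : ℕ)
    (S : Finset (Fin K)) (hS : S.card ≤ γ)
    (h1 : ∀ k, cN χ (p k • a k) ≤ η) (h2 : ∀ k, k ∉ S → cN χ (a k) ≤ η)
    (h3 : cN χ (∑ k, a k) ≤ ε)
    (hgap : (Y : ℝ) ^ (γ + 2) * (ε + (K + 1) * η) ≤ 1) (k₀ : Fin K) : cN χ (a k₀) ≤ η := by
  classical
  by_cases hk : k₀ ∈ S
  swap
  · exact h2 k₀ hk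
  have hY1 : 1 ≤ Y := (hp k₀).one_lt.le.trans (hY k₀)
  set R := ∏ k ∈ S.erase k₀, p k with hR
  have hRY : R ≤ Y ^ γ := by
    calc R ≤ Y ^ (S.erase k₀).card := Finset.prod_le_pow_card _ _ _ fun k _ => hY k
      _ ≤ Y ^ γ := Nat.pow_le_pow_right hY1 (Finset.card_erase_le.trans hS)
  have hcop : Nat.Coprime R (p k₀) := by
    refine Nat.Coprime.prod_left fun k hk => ?_
    rw [Nat.coprime_primes (hp k) (hp k₀)]
    exact fun e => (Finset.mem_erase.1 hk).1 (hinj e)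
  have hRr : (R : ℝ) ≤ (Y : ℝ) ^ γ := by exact_mod_cast hRY
  have hR0 : (0 : ℝ) ≤ R := Nat.cast_nonneg _
  have hother : ∀ k ∈ Finset.univ.erase k₀, cN χ (R • a k) ≤ R * η := by
    intro k hk'
    by_cases hkS : k ∈ S
    · have : p k ∣ R := Finset.dvd_prod_of_mem _ (Finset.mem_erase.2 ⟨(Finset.mem_erase.1 hk').1, hkS⟩)
      obtain ⟨c, hc⟩ := this
      have hcR : c ≤ R := by
        rw [hc]; exact Nat.le_mul_of_pos_left _ (hp k).pos
      rw [hc, mul_nsmul]
      refine (cN_nsmul χ _ _).trans ?_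
      rw [← hc]
      exact mul_le_mul (by exact_mod_cast hcR) (h1 k) (cN_nonneg χ _) hR0
    · exact (cN_nsmul χ _ _).trans (mul_le_mul_of_nonneg_left (h2 k hkS) hR0)
  have hRa : cN χ (R • a k₀) ≤ R * ε + K * (R * η) := by
    have e : R • a k₀ = R • ∑ k, a k - ∑ k ∈ Finset.univ.erase k₀, R • a k := by
      rw [← Finset.add_sum_erase _ _ (Finset.mem_univ k₀), smul_add, Finset.smul_sum]
      abel
    rw [e]
    refine (cN_sub χ _ _).trans (add_le_add ?_ ?_)
    · exact (cN_nsmul χ _ _).trans (mul_le_mul_of_nonneg_left h3 hR0)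
    · refine (cN_sum χ _ _).trans ((Finset.sum_le_card_nsmul _ _ _ hother).trans ?_)
      rw [nsmul_eq_mul]
      refine mul_le_mul_of_nonneg_right ?_ (by positivity)
      have : (Finset.univ.erase k₀).card ≤ K := Finset.card_erase_le.trans (by simp)
      exact_mod_cast this
  obtain ⟨x, y, hx, hy, hxy⟩ := bezout (p k₀) R (hp k₀) hcop
  have e : a k₀ = x • (R • a k₀) - y • (p k₀ • a k₀) := by
    rw [← mul_nsmul', ← mul_nsmul', hxy, add_nsmul, one_nsmul]
    abel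
  have hxY : (x : ℝ) ≤ Y := by exact_mod_cast hx.trans (hY k₀)
  have hY1' : (1 : ℝ) ≤ Y := by exact_mod_cast hY1
  have hyR : (y : ℝ) ≤ R := by exact_mod_cast hy
  have hb : cN χ (a k₀) ≤ (Y : ℝ) ^ (γ + 1) * (ε + (K + 1) * η) := by
    calc cN χ (a k₀) = cN χ (x • (R • a k₀) - y • (p k₀ • a k₀)) := by rw [← e]
      _ ≤ x * cN χ (R • a k₀) + y * cN χ (p k₀ • a k₀) :=
          (cN_sub χ _ _).trans (add_le_add (cN_nsmul χ _ _) (cN_nsmul χ _ _))
      _ ≤ Y * (R * ε + K * (R * η)) + (Y * R) * η := by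
          refine add_le_add (mul_le_mul hxY hRa (cN_nonneg χ _) (by positivity))
            (mul_le_mul ?_ (h1 k₀) (cN_nonneg χ _) (by positivity))
          exact hyR.trans (le_mul_of_one_le_left hR0 hY1')
      _ = (Y * R) * (ε + (K + 1) * η) := by ring
      _ ≤ (Y * Y ^ γ) * (ε + (K + 1) * η) := by gcongr
      _ = _ := by ring
  refine (cN_gap χ (p k₀) (hp k₀).pos (a k₀) ?_).trans (h1 k₀)
  have hpY : (p k₀ : ℝ) ≤ Y := by exact_mod_cast hY k₀
  calc (p k₀ : ℝ) * cN χ (a k₀) ≤ Y * ((Y : ℝ) ^ (γ + 1) * (ε + (K + 1) * η)) :=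
        mul_le_mul hpY hb (cN_nonneg χ _) (by positivity)
    _ = (Y : ℝ) ^ (γ + 2) * (ε + (K + 1) * η) := by ring
    _ ≤ 1 := hgap

/-- A nonzero integer of absolute value below 2 ^ b has at most b prime divisors in the family. -/
lemma card_dvd_le {K : ℕ} (p : Fin K → ℕ) (hp : ∀ k, (p k).Prime) (hinj : Function.Injective p)
    (z : ℤ) (hz : z ≠ 0) (b : ℕ) (hb : z.natAbs < 2 ^ b) :
    (Finset.univ.filter fun k => (p k : ℤ) ∣ z).card ≤ b := by
  classical
  set S := Finset.univ.filter fun k => (p k : ℤ) ∣ z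
  have h1 : ∏ k ∈ S, p k ∣ z.natAbs := by
    rw [← Int.natCast_dvd, Nat.cast_prod]
    refine Finset.prod_dvd_of_coprime ?_ ?_
    · intro i _ j _ hij
      simp only [Function.onFun]
      rw [Nat.isCoprime_iff_coprime, Nat.coprime_primes (hp i) (hp j)]
      exact fun e => hij (hinj e)
    · intro k hk
      exact (Finset.mem_filter.1 hk).2
  have h2 : 2 ^ S.card ≤ ∏ k ∈ S, p k := Finset.pow_card_le_prod _ _ _ fun k _ => (hp k).two_le
  have h3 := Nat.le_of_dvd (Int.natAbs_pos.2 hz) h1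
  have h4 : 2 ^ S.card < 2 ^ b := by omega
  exact ((Nat.pow_lt_pow_iff_right (by norm_num)).1 h4).le

end Vale.Agent.P238
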