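import Vale.Agent.P238.Words
import Vale.Agent.P238.Chars

namespace Vale.Agent.P238

open List

/-- A family of words indexed by a finite abelian group, with cheap moves and far elements. -/
structure Sys (K : ℕ) (q : Fin K → ℕ) (n σ d M : ℕ) (D Dinf η : ℝ) : Type 1 where
  A : Type
  [grp : AddCommGroup A]
  [fin : Fintype A]
  S : Type
  [finS : Fintype S]
  cardS : Fintype.card S ≤ σ
  X : A → List S
  len : ∀ u, (X u).length = n
  ι : Type
  [finι : Fintype ι]
  γ : ι → A
  w : ι → ℝ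
  w_nonneg : ∀ i, 0 ≤ w i
  cost : ι → ℕ
  near : ∀ i u, ∃ v, v <+ X u ∧ v <+ X (u + γ i) ∧ n ≤ v.length + cost i
  costsum : ∑ i, w i * cost i ≤ 2 * n
  ρ : Fin K → A
  F0 : ∀ χ : AddChar A ℂ, ∑ i, w i * cN χ (γ i) ^ 2 < 2 → ∀ a, χ a = 1
  F1 : ∀ (χ : AddChar A ℂ) k, ∑ i, w i * cN χ (γ i) ^ 2 < D → cN χ (ρ k) ≤ η
  F2 : ∀ (χ : AddChar A ℂ) k, ∑ i, w i * cN χ (γ i) ^ 2 < Dinf → cN χ (q k • ρ k) ≤ η
  d_le : d ≤ n
  far : ∀ u k (μ : ℤ), ¬ (q k : ℤ) ∣ μ → μ.natAbs ≤ M →
    ∀ v, v <+ X u → v <+ X (u + μ • ρ k) → v.length + d ≤ n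

attribute [instance] Sys.grp Sys.fin Sys.finS Sys.finι

/-- The level zero system. -/
lemma Sys.base (K : ℕ) (q : Fin K → ℕ) (hq : ∀ k, (q k).Prime) (Y : ℕ) (hY : ∀ k, q k ≤ Y)
    (M : ℕ) (Dinf η : ℝ) (hη : 0 ≤ η) : Nonempty (Sys K q 1 (Y ^ K) 1 M 2 Dinf η) := by
  classical
  have : ∀ k, NeZero (q k) := fun k => ⟨(hq k).ne_zero⟩
  let A := ∀ k : Fin K, ZMod (q k)
  have hc : (0 : ℝ) < Fintype.card A := by exact_mod_cast Fintype.card_pos
  have hF0 : ∀ χ : AddChar A ℂ, ∑ a : A, (Fintype.card A : ℝ)⁻¹ * cN χ a ^ 2 < 2 → ∀ a, χ a = 1 := by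
    intro χ h
    apply cN_uniform
    rw [← Finset.mul_sum, inv_mul_lt_iff₀ hc] at h
    linarith
  refine ⟨{
    A := A, S := A, cardS := ?_, X := fun u => [u], len := fun _ => rfl, ι := A, γ := id,
    w := fun _ => (Fintype.card A : ℝ)⁻¹, w_nonneg := fun _ => by positivity, cost := fun _ => 1,
    near := fun i u => ⟨[], by simp, by simp, by simp⟩, costsum := ?_,
    ρ := fun k => Pi.single k 1, F0 := hF0, F1 := ?_, F2 := ?_, d_le := le_rfl, far := ?_ }⟩
  · simp only [A, Fintype.card_pi, ZMod.card]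
    calc ∏ k, q k ≤ Y ^ (Finset.univ : Finset (Fin K)).card :=
          Finset.prod_le_pow_card _ _ _ fun k _ => hY k
      _ = Y ^ K := by simp
  · simp [hc.ne']
  · intro χ k h
    simp [cN, hF0 χ h, hη]
  · intro χ k _
    have : q k • (Pi.single k 1 : A) = 0 := by
      funext j
      by_cases h : j = k
      · subst h; simp
      · simp [h]
    rw [this, cN_zero]; exact hη
  · intro u k μ hμ _ v h1 h2
    rcases sublist_singleton.1 h1 with rfl | rfl
    · simp
    · exfalso
      have h3 : u = u + μ • (Pi.single k 1 : A) := by simpa using h2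
      have h4 := congrFun h3 k
      rw [Pi.add_apply, Pi.smul_apply, Pi.single_eq_same, zsmul_eq_mul, mul_one,
        left_eq_add] at h4
      exact hμ ((ZMod.intCast_zmod_eq_zero_iff_dvd μ (q k)).1 h4)

section generic
variable {α β : Type}

lemma common_flatMap (l : List β) (a b : β → List α) (N c : ℕ)
    (h : ∀ j, ∃ v, v <+ a j ∧ v <+ b j ∧ N ≤ v.length + c) :
    ∃ v, v <+ l.flatMap a ∧ v <+ l.flatMap b ∧ l.length * N ≤ v.length + l.length * c := by
  induction l with
  | nil => exact ⟨[], by simp, by simp, by simp⟩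
  | cons j l ih =>
    obtain ⟨v, h1, h2, h3⟩ := ih
    obtain ⟨v', g1, g2, g3⟩ := h j
    refine ⟨v' ++ v, by simpa using g1.append h1, by simpa using g2.append h2, ?_⟩
    simp only [length_cons, length_append, add_mul]
    omega

lemma length_flatMap_const (l : List β) (a : β → List α) (N : ℕ) (h : ∀ j, (a j).length = N) :
    (l.flatMap a).length = l.length * N := by
  induction l with
  | nil => simp
  | cons j l ih => simp only [flatMap_cons, length_append, ih, h, length_cons]; ring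

lemma common_shift (F : ℕ → List α) (N m t : ℕ) (h : ∀ j, (F j).length = N) :
    ∃ v, v <+ (range m).flatMap F ∧ v <+ (range m).flatMap (fun i => F (t + i)) ∧
      m * N ≤ v.length + t * N := by
  refine ⟨((range (m - t)).map (t + ·)).flatMap F, ?_, ?_, ?_⟩
  · rcases le_total t m with htm | htm
    · refine Sublist.flatMap ?_ F
      conv_rhs => rw [show m = t + (m - t) by omega, range_add]
      exact sublist_append_right _ _
    · simp [Nat.sub_eq_zero_of_le htm]
  · rw [flatMap_map]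
    exact Sublist.flatMap (range_sublist.2 (by omega)) _
  · rw [length_flatMap_const _ _ N h, ← add_mul]
    simp only [length_map, length_range]
    exact Nat.mul_le_mul_right _ (by omega)

end generic

namespace Sys

variable {K : ℕ} {q : Fin K → ℕ} {n σ d M : ℕ} {D Dinf η : ℝ}
  (s : Sys K q n σ d M D Dinf η)

/-- A super-block. -/
def blk (u : Fin K → s.A) : List (Option (Fin K × s.S)) :=
  tagged (finRange K) fun k => s.X (u k)

/-- The next level words. -/
def up (m : ℕ) (u : Fin K → s.A) : List (Option (Fin K × s.S)) :=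
  (range m).flatMap fun i => s.blk (u + i • s.ρ) ++ replicate (K * n) none

lemma length_blk (u : Fin K → s.A) : (s.blk u).length = K * n := by
  simp [blk, length_tagged, s.len]

lemma length_up (m : ℕ) (u : Fin K → s.A) : (s.up m u).length = m * (2 * (K * n)) := by
  rw [up, length_flatMap_const _ _ (2 * (K * n))]
  · simp
  · intro j; simp [length_blk]; ring

lemma near_blk (k : Fin K) (i : s.ι) (u : Fin K → s.A) :
    ∃ v, v <+ s.blk u ∧ v <+ s.blk (u + Pi.single k (s.γ i)) ∧ K * n ≤ v.length + s.cost i := by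
  obtain ⟨v, h1, h2, h3⟩ := s.near i (u k)
  refine ⟨tagged (finRange K) (Function.update (fun k' => s.X (u k')) k v), ?_, ?_, ?_⟩
  · refine tagged_sublist _ fun k' => ?_
    by_cases h : k' = k
    · subst h; simpa using h1
    · simp [h]
  · refine tagged_sublist _ fun k' => ?_
    by_cases h : k' = k
    · subst h; simpa using h2
    · simp [h]
  · rw [length_tagged]
    have : ∑ _k' : Fin K, n ≤ ∑ k' : Fin K,
        ((Function.update (fun k' => s.X (u k')) k v k').length + if k' = k then s.cost i else 0) := by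
      refine Finset.sum_le_sum fun k' _ => ?_
      by_cases h : k' = k
      · subst h; simpa using h3
      · simp [h, s.len]
    rw [Finset.sum_add_distrib] at this
    simpa using this

lemma near_track (m : ℕ) (k : Fin K) (i : s.ι) (u : Fin K → s.A) :
    ∃ v, v <+ s.up m u ∧ v <+ s.up m (u + Pi.single k (s.γ i)) ∧
      m * (2 * (K * n)) ≤ v.length + m * s.cost i := by
  have := common_flatMap (range m) (fun j => s.blk (u + j • s.ρ) ++ replicate (K * n) none)
    (fun j => s.blk (u + Pi.single k (s.γ i) + j • s.ρ) ++ replicate (K * n) none)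
    (2 * (K * n)) (s.cost i) ?_
  · simpa [up] using this
  · intro j
    obtain ⟨v, h1, h2, h3⟩ := s.near_blk k i (u + j • s.ρ)
    refine ⟨v ++ replicate (K * n) none, h1.append (Sublist.refl _), ?_, ?_⟩
    · rw [add_right_comm]
      exact h2.append (Sublist.refl _)
    · simp only [length_append, length_replicate]; omega

lemma near_shift (m t : ℕ) (u : Fin K → s.A) :
    ∃ v, v <+ s.up m u ∧ v <+ s.up m (u + t • s.ρ) ∧
      m * (2 * (K * n)) ≤ v.length + t * (2 * (K * n)) := by
  have := common_shift (fun j => s.blk (u + j • s.ρ) ++ replicate (K * n) none) (2 * (K * n)) m t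
    (fun j => by simp [length_blk]; ring)
  simpa [up, add_nsmul, add_assoc] using this

lemma far_up (hq : ∀ k, (q k).Prime) (hinj : Function.Injective q) (Y : ℕ) (hY : ∀ k, q k ≤ Y)
    (m M' b κ : ℕ) (hM : M' * Y + m ≤ M) (hb : M' + m * Y < 2 ^ b) (hK : b + 2 * κ ≤ K)
    (r : ℕ) (hr : r ≤ Y) (c e : Fin K → ℕ) (hc : ∀ k, c k ≤ q k) (hce : ∀ k, c k * r = 1 + e k * q k)
    (u : Fin K → s.A) (μ : ℤ) (hμ : ¬ (r : ℤ) ∣ μ) (hμM : μ.natAbs ≤ M')
    (v : List (Option (Fin K × s.S))) (h1 : v <+ s.up m u)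
    (h2 : v <+ s.up m (u + μ • fun k => c k • s.ρ k)) :
    v.length + m * κ * d ≤ m * (2 * (K * n)) := by
  set u' : Fin K → s.A := u + μ • fun k => c k • s.ρ k with hu'
  have hE : 2 * κ * d ≤ K * n := Nat.mul_le_mul (by omega) s.d_le
  have key := decomp (replicate (K * n) none) (s.up m u') (2 * κ * d)
    ((range m).map fun i => s.blk (u + i • s.ρ)) ?_ (s.up m u') (infix_refl _) v
    (by rw [flatMap_map]; exact h1) h2
  · rw [flatMap_map] at key
    have l1 := s.length_up m u
    have l2 := s.length_up m u'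
    unfold up at l1
    rw [l1, l2, length_map, length_range] at key
    have : m * (2 * κ * d) = 2 * (m * κ * d) := by ring
    omega
  intro S hS y' hy' w hw hwy
  obtain ⟨i, hi, rfl⟩ := mem_map.1 hS
  have hi' := mem_range.1 hi
  have hsome : ∀ c ∈ w, c.isSome := fun c hc => tagged_isSome _ _ c (hw.subset hc)
  have hwl := hw.length_le
  have hwl' := hwy.length_le
  rw [length_blk] at hwl ⊢
  have hy'' : y' <:+: ((range m).map fun i => s.blk (u' + i • s.ρ)).flatMap
      (· ++ replicate (K * n) none) := by rw [flatMap_map]; exact hy'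
  rcases wall_inf _ hsome hy'' hwy with rfl | ⟨T, hT, hwT⟩ | h3
  · simp only [length_nil]; omega
  swap
  · omega
  obtain ⟨i', hi2, rfl⟩ := mem_map.1 hT
  have hi2' := mem_range.1 hi2
  set t : ℤ := (i' : ℤ) - i with ht
  have hz : μ + t * r ≠ 0 := by
    intro h0
    apply hμ
    exact ⟨-t, by linarith⟩
  have htm : t.natAbs ≤ m := by omega
  have hzb : (μ + t * r).natAbs < 2 ^ b := by
    have h4 := Int.natAbs_add_le μ (t * r)
    rw [Int.natAbs_mul, Int.natAbs_natCast] at h4
    have h5 : t.natAbs * r ≤ m * Y := Nat.mul_le_mul htm hr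
    omega
  have hcard := card_dvd_le q hq hinj _ hz b hzb
  have hbound := common_tagged _ _ (fun k => if (q k : ℤ) ∣ μ + t * r then n else n - d) ?_ hw hwT
  · have h6 : ∑ k : Fin K, ((if (q k : ℤ) ∣ μ + t * r then n else n - d) +
        (if (q k : ℤ) ∣ μ + t * r then 0 else d)) = K * n := by
      have : ∀ k : Fin K, ((if (q k : ℤ) ∣ μ + t * r then n else n - d) +
          (if (q k : ℤ) ∣ μ + t * r then 0 else d)) = n := by
        intro k
        have := s.d_le
        split_ifs <;> omega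
      simp [this]
    rw [Finset.sum_add_distrib] at h6
    have h7 : ∑ k : Fin K, (if (q k : ℤ) ∣ μ + t * r then 0 else d) =
        (Finset.univ.filter fun k => ¬ (q k : ℤ) ∣ μ + t * r).card * d := by
      rw [Finset.sum_ite]; simp
    have h8 := Finset.card_filter_add_card_filter_not (s := Finset.univ)
      (fun k => (q k : ℤ) ∣ μ + t * r)
    simp only [Finset.card_univ, Fintype.card_fin] at h8
    have h9 : 2 * κ * d ≤ (Finset.univ.filter fun k => ¬ (q k : ℤ) ∣ μ + t * r).card * d :=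
      Nat.mul_le_mul_right _ (by omega)
    omega
  · intro k v' g1 g2
    split_ifs with hdiv
    · have := g1.length_le
      rwa [s.len] at this
    · have e1 : (u' + i' • s.ρ) k = (u + i • s.ρ) k + (μ * c k + t) • s.ρ k := by
        simp only [hu', ht, Pi.add_apply, Pi.smul_apply, add_smul, sub_smul, mul_smul, natCast_zsmul]
        abel
      rw [e1] at g2
      have h10 := s.far _ k (μ * c k + t) ?_ ?_ v' g1 g2
      · omega
      · intro h11
        apply hdiv
        have h12 : (c k : ℤ) * r = 1 + e k * q k := by exact_mod_cast hce k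
        have : μ + t * r = (μ * c k + t) * r - q k * (μ * e k) := by
          linear_combination (-μ) * h12
        rw [this]
        exact (h11.mul_right _).sub (dvd_mul_right _ _)
      · have h4 := Int.natAbs_add_le (μ * c k) t
        rw [Int.natAbs_mul, Int.natAbs_natCast] at h4
        have h5 : μ.natAbs * c k ≤ M' * Y := Nat.mul_le_mul hμM ((hc k).trans (hY k))
        omega

/-- The restriction of a character to one track. -/
def trk (χ : AddChar (Fin K → s.A) ℂ) (k : Fin K) : AddChar s.A ℂ :=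
  χ.compAddMonoidHom (AddMonoidHom.single (fun _ => s.A) k)

lemma cN_trk (χ : AddChar (Fin K → s.A) ℂ) (k : Fin K) (a : s.A) :
    cN (s.trk χ k) a = cN χ (Pi.single k a) := rfl

include s in
lemma step (hq : ∀ k, (q k).Prime) (hinj : Function.Injective q) (Y : ℕ) (hY : ∀ k, q k ≤ Y)
    (q' : Fin K → ℕ) (hq' : ∀ k, (q' k).Prime) (hY' : ∀ k, q' k ≤ Y) (hqq : ∀ k k', q' k' ≠ q k)
    (m M' b κ sh g : ℕ) (hM : M' * Y + m ≤ M) (hb : M' + m * Y < 2 ^ b) (hK : b + 2 * κ ≤ K)
    (hsh : 0 < sh) (hm : Dinf * sh ≤ m) (hD : 0 < D) (hg : 0 < g) (hDinf : g * D ≤ Dinf)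
    (hη : 0 ≤ η) (η' : ℝ) (hη' : 4 / sh + K * (Y * η) ≤ η')
    (hgap : (Y : ℝ) ^ (g + 2) * (4 / sh + (K + 1) * η) ≤ 1) :
    Nonempty (Sys K q' (m * (2 * (K * n))) (K * σ + 1) (m * κ * d) M' (g * D) Dinf η') := by
  classical
  have hex : ∀ k k', ∃ x y : ℕ, x ≤ q k ∧ y ≤ q' k' ∧ x * q' k' = 1 + y * q k := fun k k' =>
    bezout (q k) (q' k') (hq k) ((Nat.coprime_primes (hq' k') (hq k)).2 (hqq k k'))
  choose c e hc he hce using hex
  have hsh' : (0 : ℝ) < sh := by exact_mod_cast hsh
  have hg' : (0 : ℝ) < g := by exact_mod_cast hg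
  have hDinf0 : 0 < Dinf := lt_of_lt_of_le (by positivity) hDinf
  let γ' : (Fin K × s.ι) ⊕ Fin sh → (Fin K → s.A) :=
    Sum.elim (fun p => Pi.single p.1 (s.γ p.2)) (fun t => (t : ℕ) • s.ρ)
  let w' : (Fin K × s.ι) ⊕ Fin sh → ℝ := Sum.elim (fun p => s.w p.2) (fun _ => Dinf / sh)
  let cost' : (Fin K × s.ι) ⊕ Fin sh → ℕ :=
    Sum.elim (fun p => m * s.cost p.2) (fun t => (t : ℕ) * (2 * (K * n)))
  have hW : ∀ χ : AddChar (Fin K → s.A) ℂ, ∑ i, w' i * cN χ (γ' i) ^ 2 =
      ∑ k, ∑ i, s.w i * cN (s.trk χ k) (s.γ i) ^ 2 +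
        Dinf / sh * ∑ t : Fin sh, cN χ ((t : ℕ) • s.ρ) ^ 2 := by
    intro χ
    rw [Fintype.sum_sum_type, Fintype.sum_prod_type, Finset.mul_sum]
    rfl
  have hWk : ∀ (χ : AddChar (Fin K → s.A) ℂ) k, 0 ≤ ∑ i, s.w i * cN (s.trk χ k) (s.γ i) ^ 2 :=
    fun χ k => Finset.sum_nonneg fun i _ => mul_nonneg (s.w_nonneg i) (sq_nonneg _)
  have hWs : ∀ χ : AddChar (Fin K → s.A) ℂ,
      0 ≤ Dinf / sh * ∑ t : Fin sh, cN χ ((t : ℕ) • s.ρ) ^ 2 := fun χ => by positivity
  have hle : ∀ (χ : AddChar (Fin K → s.A) ℂ) k,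
      ∑ i, s.w i * cN (s.trk χ k) (s.γ i) ^ 2 ≤ ∑ i, w' i * cN χ (γ' i) ^ 2 := by
    intro χ k
    rw [hW]
    have := Finset.single_le_sum (f := fun k => ∑ i, s.w i * cN (s.trk χ k) (s.γ i) ^ 2)
      (fun k _ => hWk χ k) (Finset.mem_univ k)
    linarith [hWs χ]
  have hρ : s.ρ = ∑ k, Pi.single k (s.ρ k) := (Finset.univ_sum_single s.ρ).symm
  have hshift : ∀ χ : AddChar (Fin K → s.A) ℂ, ∑ i, w' i * cN χ (γ' i) ^ 2 < Dinf →
      cN χ (∑ k, Pi.single k (s.ρ k)) ≤ 4 / sh := by
    intro χ h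
    rw [← hρ]
    apply cN_shift χ sh hsh
    rw [hW] at h
    have h1 : Dinf / sh * ∑ t : Fin sh, cN χ ((t : ℕ) • s.ρ) ^ 2 < Dinf := by
      have := Finset.sum_nonneg fun k (_ : k ∈ Finset.univ) => hWk χ k
      linarith
    rw [div_mul_eq_mul_div, div_lt_iff₀ hsh'] at h1
    exact lt_of_mul_lt_mul_left h1 hDinf0.le
  have hord : ∀ χ : AddChar (Fin K → s.A) ℂ, ∑ i, w' i * cN χ (γ' i) ^ 2 < Dinf →
      ∀ k, cN χ (q k • (Pi.single k (s.ρ k) : Fin K → s.A)) ≤ η := by
    intro χ h k
    rw [← Pi.single_smul', ← cN_trk]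
    exact s.F2 _ k ((hle χ k).trans_lt h)
  have hρ' : ∀ k', (fun k => c k k' • s.ρ k) =
      ∑ k, c k k' • (Pi.single k (s.ρ k) : Fin K → s.A) := by
    intro k'
    rw [← Finset.univ_sum_single (fun k => c k k' • s.ρ k)]
    exact Finset.sum_congr rfl fun k _ => Pi.single_smul' _ _ _
  have hsumY : ∀ (x : Fin K → ℕ) (z : Fin K → ℝ), (∀ k, x k ≤ Y) → (∀ k, 0 ≤ z k) →
      (∀ k, z k ≤ η) → ∑ k, (x k : ℝ) * z k ≤ K * (Y * η) := by
    intro x z hx hz hz'
    have : ∀ k ∈ Finset.univ, (x k : ℝ) * z k ≤ Y * η := fun k _ =>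
      mul_le_mul (by exact_mod_cast hx k) (hz' k) (hz k) (by positivity)
    simpa using Finset.sum_le_card_nsmul _ _ _ this
  refine ⟨{
    A := Fin K → s.A, S := Option (Fin K × s.S), cardS := ?_, X := s.up m,
    len := s.length_up m, ι := (Fin K × s.ι) ⊕ Fin sh, γ := γ', w := w', w_nonneg := ?_,
    cost := cost', near := ?_, costsum := ?_, ρ := fun k' k => c k k' • s.ρ k,
    F0 := ?_, F1 := ?_, F2 := ?_, d_le := ?_, far := ?_ }⟩
  · simp only [Fintype.card_option, Fintype.card_prod, Fintype.card_fin]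
    have := Nat.mul_le_mul_left K s.cardS
    omega
  · rintro (p | t)
    · exact s.w_nonneg _
    · exact div_nonneg hDinf0.le hsh'.le
  · rintro (p | t) u
    · exact s.near_track m p.1 p.2 u
    · exact s.near_shift m t u
  · rw [Fintype.sum_sum_type, Fintype.sum_prod_type]
    have h1 : ∑ k : Fin K, ∑ i : s.ι, w' (Sum.inl (k, i)) * (cost' (Sum.inl (k, i)) : ℝ) ≤
        K * (m * (2 * n)) := by
      have : ∀ k ∈ (Finset.univ : Finset (Fin K)),
          ∑ i : s.ι, w' (Sum.inl (k, i)) * (cost' (Sum.inl (k, i)) : ℝ) ≤ m * (2 * n) := by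
        intro k _
        have e1 : ∑ i : s.ι, w' (Sum.inl (k, i)) * (cost' (Sum.inl (k, i)) : ℝ) =
            m * ∑ i, s.w i * s.cost i := by
          rw [Finset.mul_sum]
          refine Finset.sum_congr rfl fun i _ => ?_
          simp only [w', cost', Sum.elim_inl]; push_cast; ring
        rw [e1]
        exact mul_le_mul_of_nonneg_left s.costsum (by positivity)
      simpa using Finset.sum_le_card_nsmul _ _ _ this
    have h2 : ∑ t : Fin sh, w' (Sum.inr t) * (cost' (Sum.inr t) : ℝ) ≤ m * (2 * (K * n)) := by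
      have : ∀ t ∈ (Finset.univ : Finset (Fin sh)),
          w' (Sum.inr t) * (cost' (Sum.inr t) : ℝ) ≤ Dinf * (2 * (K * n)) := by
        intro t _
        simp only [w', cost', Sum.elim_inr]
        push_cast
        have ht : ((t : ℕ) : ℝ) ≤ sh := by exact_mod_cast t.2.le
        calc Dinf / sh * ((t : ℕ) * (2 * (K * n))) ≤ Dinf / sh * (sh * (2 * (K * n))) := by gcongr
          _ = Dinf * (2 * (K * n)) := by field_simp
      have h3 := Finset.sum_le_card_nsmul _ _ _ this
      simp only [Finset.card_univ, Fintype.card_fin, nsmul_eq_mul] at h3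
      calc _ ≤ sh * (Dinf * (2 * (K * n))) := h3
        _ = (Dinf * sh) * (2 * (K * n)) := by ring
        _ ≤ m * (2 * (K * n)) := by gcongr
    push_cast
    linarith
  · intro χ h a
    have h1 : ∀ k, χ (Pi.single k (a k)) = 1 := fun k =>
      s.F0 (s.trk χ k) ((hle χ k).trans_lt h) (a k)
    have h2 : cN χ a ≤ 0 := by
      rw [← Finset.univ_sum_single a]
      refine (cN_sum χ _ _).trans (le_of_eq (Finset.sum_eq_zero fun k _ => ?_))
      simp [cN, h1 k]
    have h3 : ‖1 - χ a‖ = 0 := le_antisymm h2 (norm_nonneg _)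
    rw [norm_eq_zero, sub_eq_zero] at h3
    exact h3.symm
  · intro χ k' h
    have h' := h.trans_le hDinf
    set S := Finset.univ.filter fun k => D ≤ ∑ i, s.w i * cN (s.trk χ k) (s.γ i) ^ 2 with hS
    have hScard : S.card ≤ g := by
      have h1 : (S.card : ℝ) * D ≤ ∑ k ∈ S, ∑ i, s.w i * cN (s.trk χ k) (s.γ i) ^ 2 := by
        have := Finset.card_nsmul_le_sum S (fun k => ∑ i, s.w i * cN (s.trk χ k) (s.γ i) ^ 2) D
          fun k hk => (Finset.mem_filter.1 hk).2
        simpa using this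
      have h2 : ∑ k ∈ S, ∑ i, s.w i * cN (s.trk χ k) (s.γ i) ^ 2 ≤
          ∑ k, ∑ i, s.w i * cN (s.trk χ k) (s.γ i) ^ 2 :=
        Finset.sum_le_sum_of_subset_of_nonneg (Finset.subset_univ _) fun k _ _ => hWk χ k
      rw [hW] at h
      have h3 : (S.card : ℝ) * D < g * D := by linarith [hWs χ]
      have h4 := lt_of_mul_lt_mul_right h3 hD.le
      exact_mod_cast h4.le
    have hall := cN_crt χ q hq hinj Y hY (fun k => Pi.single k (s.ρ k)) η (4 / sh) hη
      (by positivity) g S hScard (hord χ h') ?_ (hshift χ h') hgap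
    · change cN χ (fun k => c k k' • s.ρ k) ≤ η'
      rw [hρ']
      refine (cN_sum χ _ _).trans ((Finset.sum_le_sum fun k _ => cN_nsmul χ _ _).trans ?_)
      have := hsumY (fun k => c k k') _ (fun k => (hc k k').trans (hY k))
        (fun k => cN_nonneg χ _) hall
      have h5 : (0 : ℝ) ≤ 4 / sh := by positivity
      linarith
    · intro k hk
      rw [← cN_trk]
      apply s.F1
      simpa [hS] using hk
  · intro χ k' h
    change cN χ (q' k' • fun k => c k k' • s.ρ k) ≤ η'
    have e1 : (q' k' • fun k => c k k' • s.ρ k) = ∑ k, (Pi.single k (s.ρ k) : Fin K → s.A) +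
        ∑ k, e k k' • (q k • (Pi.single k (s.ρ k) : Fin K → s.A)) := by
      rw [hρ', Finset.smul_sum, ← Finset.sum_add_distrib]
      refine Finset.sum_congr rfl fun k _ => ?_
      rw [← mul_nsmul', ← mul_nsmul', mul_comm (q' k'), hce, add_nsmul, one_nsmul]
    rw [e1]
    refine (cN_add χ _ _).trans ?_
    have h1 := hshift χ h
    have h2 := (cN_sum χ Finset.univ fun k =>
      e k k' • (q k • (Pi.single k (s.ρ k) : Fin K → s.A))).trans
      ((Finset.sum_le_sum fun k _ => cN_nsmul χ _ _).trans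
        (hsumY (fun k => e k k') _ (fun k => (he k k').trans (hY' k'))
          (fun k => cN_nonneg χ _) (hord χ h)))
    linarith
  · have h1 : κ * d ≤ 2 * (K * n) := by
      have : κ * d ≤ K * n := Nat.mul_le_mul (by omega) s.d_le
      omega
    rw [mul_assoc]
    exact Nat.mul_le_mul_left _ h1
  · intro u k' μ hμ hμM v h1 h2
    exact s.far_up hq hinj Y hY m M' b κ hM hb hK (q' k') (hY' k') (fun k => c k k')
      (fun k => e k k') (fun k => hc k k') (fun k => hce k k') u μ hμ hμM v h1 h2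

end Sys

end Vale.Agent.P238
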