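import Vale.Agent.P238.EditBasic
import Vale.Agent.P238.Fourier
import Vale.Agent.P238.Step

namespace Vale.Agent.P238

open List

lemma exists_injective_l1 (X : Type) [Finite X] :
    Nonempty {f : X → lp (fun _ : ℕ => ℝ) 1 // Function.Injective f} := by
  obtain ⟨g, hg⟩ := Countable.exists_injective_nat X
  refine ⟨⟨fun x => lp.single 1 0 (g x : ℝ), fun x y h => ?_⟩⟩
  have := congrArg (fun v : lp (fun _ : ℕ => ℝ) 1 => v 0) h
  simp only [lp.single_apply_self, Nat.cast_inj] at this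
  exact hg this

lemma le_c1 {X : Type} [Finite X] (ρ : X → X → ℝ) (h0 : ∀ x, ρ x x = 0)
    (hpos : ∀ x y, x ≠ y → 0 < ρ x y) (B : ℝ)
    (hB : ∀ (f : X → lp (fun _ : ℕ => ℝ) 1) (L₁ L₂ : ℝ), 0 ≤ L₁ → 0 ≤ L₂ →
      (∀ x y, ‖f x - f y‖ ≤ L₁ * ρ x y) → (∀ x y, ρ x y ≤ L₂ * ‖f x - f y‖) → B ≤ L₁ * L₂) :
    B ≤ c1 X ρ := by
  have := exists_injective_l1 X
  refine le_ciInf fun f => hB f.1 _ _ ?_ ?_ ?_ ?_
  · exact Real.iSup_nonneg fun p => div_nonneg (norm_nonneg _) (hpos _ _ p.2).le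
  · exact Real.iSup_nonneg fun p => div_nonneg (hpos _ _ p.2).le (norm_nonneg _)
  · intro x y
    by_cases h : x = y
    · simp [h, h0]
    · rw [← div_le_iff₀ (hpos x y h)]
      exact le_ciSup (f := fun p : {p : X × X // p.1 ≠ p.2} =>
        ‖f.1 p.1.1 - f.1 p.1.2‖ / ρ p.1.1 p.1.2) (Finite.bddAbove_range _) ⟨(x, y), h⟩
  · intro x y
    by_cases h : x = y
    · simp [h, h0]
    · have hn : 0 < ‖f.1 x - f.1 y‖ := norm_pos_iff.2 (sub_ne_zero.2 fun e => h (f.2 e))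
      rw [← div_le_iff₀ hn]
      exact le_ciSup (f := fun p : {p : X × X // p.1 ≠ p.2} =>
        ρ p.1.1 p.1.2 / ‖f.1 p.1.1 - f.1 p.1.2‖) (Finite.bddAbove_range _) ⟨(x, y), h⟩

lemma ED_ofFn_pos {N : ℕ} (x y : Fin N → Bool) (h : x ≠ y) :
    (0 : ℝ) < ED (List.ofFn x) (List.ofFn y) := by
  have : ED (List.ofFn x) (List.ofFn y) ≠ 0 := fun e => h (List.ofFn_injective (eq_of_ED_eq_zero e))
  positivity

namespace Sys

variable {K : ℕ} {q : Fin K → ℕ} {n σ d M : ℕ} {D Dinf η : ℝ}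

lemma mono_card (s : Sys K q n σ d M D Dinf η) {σ' : ℕ} (h : σ ≤ σ') :
    Nonempty (Sys K q n σ' d M D Dinf η) := ⟨{ s with cardS := s.cardS.trans h }⟩

lemma c1_ge (s : Sys K q n σ d M D Dinf η) (k : Fin K) (hq : 2 ≤ q k) (hM : 1 ≤ M) (hD : 0 < D)
    (hη : η ^ 2 ≤ 8 / D) (r : ℕ) (hr : σ ≤ 2 ^ r) (N : ℕ) (hN : (2 * r + 3) * n ≤ N)
    (hn : 0 < n) :
    d * D / (32 * (2 * r + 3) * n) ≤
      c1 (Fin N → Bool) fun x y => (ED (List.ofFn x) (List.ofFn y) : ℝ) := by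
  classical
  obtain ⟨e₀⟩ : Nonempty (s.S ↪ (Fin r → Bool)) :=
    Function.Embedding.nonempty_of_card_le (by simpa using s.cardS.trans hr)
  let e : s.S → List Bool := fun c => List.ofFn (e₀ c)
  have her : ∀ c, (e c).length = r := fun c => by simp [e]
  have he : Function.Injective e := fun a b h => e₀.injective (List.ofFn_injective h)
  let P : List Bool := replicate (N - (2 * r + 3) * n) false
  have hP : P.length = N - (2 * r + 3) * n := by simp [P]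
  let Zl : s.A → List Bool := fun u => P ++ enc e (s.X u)
  have hl : ∀ u, (enc e (s.X u)).length = (2 * r + 3) * n := fun u => by
    rw [length_enc e her, s.len]
  have hZl : ∀ u, (Zl u).length = N := fun u => by
    simp only [Zl, length_append, hP, hl]; omega
  have hZ : ∀ u, ∃ z : Fin N → Bool, List.ofFn z = Zl u := fun u => by
    have := hZl u
    exact ⟨fun i => (Zl u).get (i.cast this.symm), by
      apply List.ext_get (by simp [this]); intro i h1 h2; simp⟩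
  choose Z hZ using hZ
  have hfar : ∀ u, d ≤ 2 * ED (Zl u) (Zl (u + s.ρ k)) := by
    intro u
    obtain ⟨w, h1, h2, h3⟩ := exists_common_ED (Zl u) (Zl (u + s.ρ k))
    obtain ⟨w', g1, g2, g3⟩ := pad_common P h1 h2
    obtain ⟨v, f1, f2, f3⟩ := enc_common e her he (s.X u) (s.X (u + s.ρ k)) _ w'
      (suffix_refl _) g1 g2
    have f4 := s.far u k 1 (fun h => by
      have := Int.le_of_dvd one_pos h
      omega) (by simpa using hM) v f1 (by simpa using f2)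
    rw [hZl] at h3
    rw [hl, hl, s.len] at f3
    omega
  have hnear : ∀ i u, ED (Zl u) (Zl (u + s.γ i)) ≤ 2 * ((2 * r + 3) * s.cost i) := by
    intro i u
    obtain ⟨v, h1, h2, h3⟩ := s.near i u
    have h4 := ED_le_of_sublist (w := P ++ enc e v) (x := Zl u) (y := Zl (u + s.γ i))
      ((Sublist.refl _).append (enc_sublist e h1)) ((Sublist.refl _).append (enc_sublist e h2))
    rw [hZl, hZl, length_append, hP, length_enc e her] at h4
    have h5 := Nat.mul_le_mul_left (2 * r + 3) h3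
    rw [mul_add] at h5
    omega
  have hchar : ∀ ψ : AddChar s.A ℂ,
      ‖1 - ψ (s.ρ k)‖ ^ 2 ≤ ∑ i, (4 / D * s.w i) * ‖1 - ψ (s.γ i)‖ ^ 2 := by
    intro ψ
    have e1 : ∑ i, (4 / D * s.w i) * ‖1 - ψ (s.γ i)‖ ^ 2 =
        4 / D * ∑ i, s.w i * cN ψ (s.γ i) ^ 2 := by
      rw [Finset.mul_sum]
      exact Finset.sum_congr rfl fun i _ => by simp only [cN]; ring
    rw [e1]
    change cN ψ (s.ρ k) ^ 2 ≤ _
    set W := ∑ i, s.w i * cN ψ (s.γ i) ^ 2 with hW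
    have hW0 : 0 ≤ W := Finset.sum_nonneg fun i _ => mul_nonneg (s.w_nonneg i) (sq_nonneg _)
    have h0 := cN_nonneg ψ (s.ρ k)
    by_cases h2 : W < 2
    · have := s.F0 ψ h2 (s.ρ k)
      simp only [cN, this, sub_self, norm_zero]
      rw [zero_pow two_ne_zero]
      positivity
    push Not at h2
    by_cases h3 : W < D
    · have h4 := s.F1 ψ k h3
      calc cN ψ (s.ρ k) ^ 2 ≤ η ^ 2 := by gcongr
        _ ≤ 8 / D := hη
        _ = 4 / D * 2 := by ring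
        _ ≤ 4 / D * W := by gcongr
    · push Not at h3
      have h4 := cN_le_two ψ (s.ρ k)
      calc cN ψ (s.ρ k) ^ 2 ≤ 2 ^ 2 := by gcongr
        _ = 4 / D * D := by field_simp; norm_num
        _ ≤ 4 / D * W := by gcongr
  refine le_c1 _ (fun x => by simp [ED_self]) (fun x y h => ED_ofFn_pos x y h) _ ?_
  intro f L₁ L₂ hL₁ hL₂ h₁ h₂
  have hc : (0 : ℝ) < Fintype.card s.A := by exact_mod_cast Fintype.card_pos
  have hp := poincare_l1 (s.ρ k) s.γ (fun i => 4 / D * s.w i) hchar (fun u => f (Z u))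
  have a1 : (Fintype.card s.A : ℝ) * (d / 2) ≤ L₂ * ∑ u, ‖f (Z (u + s.ρ k)) - f (Z u)‖ := by
    rw [Finset.mul_sum]
    have : ∀ u ∈ (Finset.univ : Finset s.A),
        (d / 2 : ℝ) ≤ L₂ * ‖f (Z (u + s.ρ k)) - f (Z u)‖ := by
      intro u _
      have h3 := h₂ (Z u) (Z (u + s.ρ k))
      rw [hZ, hZ, norm_sub_rev] at h3
      have h4 : (d : ℝ) ≤ 2 * ED (Zl u) (Zl (u + s.ρ k)) := by exact_mod_cast hfar u
      linarith
    simpa using Finset.card_nsmul_le_sum _ _ _ this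
  have a2 : ∀ i, ∑ u, ‖f (Z (u + s.γ i)) - f (Z u)‖ ≤
      Fintype.card s.A * (L₁ * (2 * ((2 * r + 3) * s.cost i))) := by
    intro i
    have : ∀ u ∈ (Finset.univ : Finset s.A),
        ‖f (Z (u + s.γ i)) - f (Z u)‖ ≤ L₁ * (2 * ((2 * r + 3) * s.cost i)) := by
      intro u _
      have h3 := h₁ (Z u) (Z (u + s.γ i))
      rw [hZ, hZ, norm_sub_rev] at h3
      have h4 : (ED (Zl u) (Zl (u + s.γ i)) : ℝ) ≤ 2 * ((2 * r + 3) * s.cost i) := by
        exact_mod_cast hnear i u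
      exact h3.trans (mul_le_mul_of_nonneg_left h4 hL₁)
    simpa using Finset.sum_le_card_nsmul _ _ _ this
  have a3 : ∑ i, 4 / D * s.w i * ∑ u, ‖f (Z (u + s.γ i)) - f (Z u)‖ ≤
      Fintype.card s.A * (4 / D * L₁ * (2 * (2 * r + 3)) * (2 * n)) := by
    calc _ ≤ ∑ i, 4 / D * s.w i * (Fintype.card s.A * (L₁ * (2 * ((2 * r + 3) * s.cost i)))) :=
          Finset.sum_le_sum fun i _ => mul_le_mul_of_nonneg_left (a2 i)
            (mul_nonneg (by positivity) (s.w_nonneg i))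
      _ = Fintype.card s.A * (4 / D * L₁ * (2 * (2 * r + 3)) * ∑ i, s.w i * s.cost i) := by
          rw [Finset.mul_sum, Finset.mul_sum]
          exact Finset.sum_congr rfl fun i _ => by ring
      _ ≤ _ := by
          have := s.costsum
          gcongr
  have a4 : (Fintype.card s.A : ℝ) * (d / 2) ≤
      Fintype.card s.A * (L₂ * (4 / D * L₁ * (2 * (2 * r + 3)) * (2 * n))) := by
    calc _ ≤ L₂ * ∑ u, ‖f (Z (u + s.ρ k)) - f (Z u)‖ := a1
      _ ≤ L₂ * (Fintype.card s.A * (4 / D * L₁ * (2 * (2 * r + 3)) * (2 * n))) :=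
          mul_le_mul_of_nonneg_left (hp.trans a3) hL₂
      _ = _ := by ring
  have a5 := le_of_mul_le_mul_left a4 hc
  have hn' : (0 : ℝ) < n := by exact_mod_cast hn
  rw [div_le_iff₀ (by positivity)]
  have a6 : L₂ * (4 / D * L₁ * (2 * (2 * r + 3)) * (2 * n)) =
      (L₁ * L₂ * (32 * (2 * r + 3) * n)) / D / 2 := by field_simp; ring
  rw [a6, div_le_div_iff_of_pos_right (by norm_num), le_div_iff₀ hD] at a5
  exact a5

end Sys

/-- The tower of systems. -/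
lemma tower (K κ Y m sh g h b : ℕ) (p : ℕ → Fin K → ℕ) (hp : ∀ j k, (p j k).Prime)
    (hinj : ∀ j, Function.Injective (p j)) (hpp : ∀ j k k', p (j + 1) k' ≠ p j k)
    (hY : ∀ j ≤ h, ∀ k, p j k ≤ Y) (hK1 : 1 ≤ K) (hY1 : 1 ≤ Y) (hg : 1 ≤ g) (hsh : 0 < sh)
    (hm : 2 * g ^ h * sh ≤ m) (hb : 2 * (m * (2 * Y) ^ h) < 2 ^ b) (hK : b + 2 * κ ≤ K)
    (hgap : Y ^ (g + 2) * (K + 2) * (2 * K * Y) ^ h * 4 ≤ sh) (j : ℕ) (hj : j ≤ h) :
    Nonempty (Sys K (p j) ((2 * m * K) ^ j) (Y ^ K * (2 * K) ^ j) ((m * κ) ^ j)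
      (m * (2 * Y) ^ (h - j)) (2 * (g : ℝ) ^ j) (2 * (g : ℝ) ^ h)
      (4 / sh * (2 * K * Y : ℝ) ^ j)) := by
  have hsh' : (0 : ℝ) < sh := by exact_mod_cast hsh
  have hK' : (1 : ℝ) ≤ K := by exact_mod_cast hK1
  have hY' : (1 : ℝ) ≤ Y := by exact_mod_cast hY1
  have hg' : (1 : ℝ) ≤ g := by exact_mod_cast hg
  have hKY : (1 : ℝ) ≤ K * Y := one_le_mul_of_one_le_of_one_le hK' hY'
  induction j with
  | zero =>
    simpa using Sys.base K (p 0) (hp 0) Y (hY 0 (Nat.zero_le _)) (m * (2 * Y) ^ h)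
      (2 * (g : ℝ) ^ h) (4 / sh) (by positivity)
  | succ j ih =>
    obtain ⟨s⟩ := ih (by omega)
    obtain ⟨i, hi⟩ : ∃ i, h = j + 1 + i := ⟨h - (j + 1), by omega⟩
    have e1 : h - j = i + 1 := by omega
    have e2 : h - (j + 1) = i := by omega
    have hpow : 1 ≤ (2 * Y) ^ i := Nat.one_le_pow _ _ (by omega)
    have h2KY : (1 : ℝ) ≤ (2 * K * Y) ^ j := one_le_pow₀ (by nlinarith)
    have hs' := s.step (hp j) (hinj j) Y (hY j (by omega)) (p (j + 1)) (hp (j + 1))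
      (hY (j + 1) hj) (hpp j) m (m * (2 * Y) ^ (h - (j + 1))) b κ sh g ?_ ?_ hK hsh
      (by exact_mod_cast hm) (by positivity) hg ?_ (by positivity)
      (4 / sh * (2 * K * Y : ℝ) ^ (j + 1)) ?_ ?_
    · obtain ⟨s'⟩ := hs'
      have e3 : m * (2 * (K * (2 * m * K) ^ j)) = (2 * m * K) ^ (j + 1) := by ring
      have e4 : m * κ * (m * κ) ^ j = (m * κ) ^ (j + 1) := by ring
      have e5 : (g : ℝ) * (2 * (g : ℝ) ^ j) = 2 * (g : ℝ) ^ (j + 1) := by ring
      rw [e3, e4, e5] at s'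
      refine s'.mono_card ?_
      have h1 : 1 ≤ K * (Y ^ K * (2 * K) ^ j) := Nat.one_le_iff_ne_zero.2 (by positivity)
      have h2 : Y ^ K * (2 * K) ^ (j + 1) = 2 * (K * (Y ^ K * (2 * K) ^ j)) := by ring
      omega
    · rw [e1, e2]
      have h1 : m * (2 * Y) ^ (i + 1) = 2 * (m * (2 * Y) ^ i * Y) := by ring
      have h2 : m * 1 * 1 ≤ m * (2 * Y) ^ i * Y := by gcongr
      omega
    · rw [e2]
      have h1 : m * (2 * Y) ^ i ≤ m * (2 * Y) ^ h :=
        Nat.mul_le_mul_left _ (Nat.pow_le_pow_right (by omega) (by omega))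
      have h2 : m * Y ≤ m * (2 * Y) ^ h := by
        refine Nat.mul_le_mul_left _ ?_
        calc Y ≤ (2 * Y) ^ 1 := by rw [pow_one]; omega
          _ ≤ (2 * Y) ^ h := Nat.pow_le_pow_right (by omega) (by omega)
      omega
    · calc (g : ℝ) * (2 * (g : ℝ) ^ j) = 2 * (g : ℝ) ^ (j + 1) := by ring
        _ ≤ 2 * (g : ℝ) ^ h := by gcongr
    · have h1 : (4 : ℝ) / sh * 1 * 1 ≤ 4 / sh * (2 * K * Y : ℝ) ^ j * (K * Y) := by gcongr
      calc _ = 4 / sh * 1 * 1 + 4 / sh * (2 * K * Y : ℝ) ^ j * (K * Y) := by ring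
        _ ≤ 4 / sh * (2 * K * Y : ℝ) ^ j * (K * Y) + 4 / sh * (2 * K * Y : ℝ) ^ j * (K * Y) := by
            linarith
        _ = _ := by ring
    · have h1 : (Y : ℝ) ^ (g + 2) * (K + 2) * (2 * K * Y) ^ h * 4 ≤ sh := by exact_mod_cast hgap
      have h2 : (2 * K * Y : ℝ) ^ j ≤ (2 * K * Y) ^ h := pow_le_pow_right₀ (by nlinarith) (by omega)
      calc (Y : ℝ) ^ (g + 2) * (4 / sh + (K + 1) * (4 / sh * (2 * K * Y : ℝ) ^ j))
          = (Y : ℝ) ^ (g + 2) * (1 + (K + 1) * (2 * K * Y : ℝ) ^ j) * 4 / sh := by ring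
        _ ≤ (Y : ℝ) ^ (g + 2) * ((2 * K * Y : ℝ) ^ h + (K + 1) * (2 * K * Y : ℝ) ^ h) * 4 / sh := by
            gcongr
            exact h2KY.trans h2
        _ = (Y : ℝ) ^ (g + 2) * (K + 2) * (2 * K * Y) ^ h * 4 / sh := by ring
        _ ≤ 1 := (div_le_one hsh').2 h1

end Vale.Agent.P238
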