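import Mathlib

namespace Vale.Agent.P238

/-- One edit operation on binary words: insert, delete or substitute a single symbol. -/
def EditStep (x y : List Bool) : Prop :=
  ∃ (u v : List Bool) (a b : Bool),
    (x = u ++ v ∧ y = u ++ a :: v) ∨ (x = u ++ a :: v ∧ y = u ++ v) ∨
      (x = u ++ a :: v ∧ y = u ++ b :: v)

/-- The edit distance: the least number of edit operations transforming x into y. -/
noncomputable def ED (x y : List Bool) : ℕ :=
  sInf {k : ℕ | ∃ p : ℕ → List Bool, p 0 = x ∧ p k = y ∧ ∀ i < k, EditStep (p i) (p (i + 1))}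

/-- The distortion of a map f from (X, ρ) to the sequence space ℓ₁. -/
noncomputable def distortion {X : Type} (ρ : X → X → ℝ) (f : X → lp (fun _ : ℕ => ℝ) 1) : ℝ :=
  (⨆ p : {p : X × X // p.1 ≠ p.2}, ‖f p.1.1 - f p.1.2‖ / ρ p.1.1 p.1.2) *
    (⨆ p : {p : X × X // p.1 ≠ p.2}, ρ p.1.1 p.1.2 / ‖f p.1.1 - f p.1.2‖)

/-- The least distortion of an injective map from (X, ρ) to ℓ₁. -/
noncomputable def c1 (X : Type) (ρ : X → X → ℝ) : ℝ :=
  ⨅ f : {f : X → lp (fun _ : ℕ => ℝ) 1 // Function.Injective f}, distortion ρ f.1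

end Vale.Agent.P238
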