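import Vale.Agent.P238.Defs

namespace Vale.Agent.P238

open List

/-- Reachability in exactly k steps. -/
def Reach (k : ℕ) (x y : List Bool) : Prop :=
  ∃ p : ℕ → List Bool, p 0 = x ∧ p k = y ∧ ∀ i < k, EditStep (p i) (p (i + 1))

lemma reach_zero (x : List Bool) : Reach 0 x x := ⟨fun _ => x, rfl, rfl, by simp⟩

lemma Reach.step {k : ℕ} {x y z : List Bool} (h : EditStep x y) (h' : Reach k y z) :
    Reach (k + 1) x z := by
  obtain ⟨p, h0, hk, hs⟩ := h'
  refine ⟨fun i => Nat.casesOn i x p, rfl, hk, ?_⟩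
  intro i hi
  cases i with
  | zero => simpa [h0] using h
  | succ i => exact hs i (by omega)

lemma Reach.induct {k : ℕ} {x z : List Bool} (h : Reach (k + 1) x z) :
    ∃ y, EditStep x y ∧ Reach k y z := by
  obtain ⟨p, h0, hk, hs⟩ := h
  exact ⟨p 1, h0 ▸ hs 0 (by omega), fun i => p (i + 1), rfl, hk, fun i hi => hs (i + 1) (by omega)⟩

lemma Reach.eq_of_zero {x z : List Bool} (h : Reach 0 x z) : x = z := by
  obtain ⟨p, h0, hk, -⟩ := h
  rw [← h0, ← hk]

lemma Reach.trans {k l : ℕ} {x y z : List Bool} (h : Reach k x y) (h' : Reach l y z) :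
    Reach (k + l) x z := by
  induction k generalizing x with
  | zero => rw [h.eq_of_zero]; simpa using h'
  | succ k ih =>
    obtain ⟨w, hw, hr⟩ := h.induct
    have := Reach.step hw (ih hr)
    rwa [show k + 1 + l = k + l + 1 by ring]

lemma EditStep.cons {x y : List Bool} (c : Bool) (h : EditStep x y) :
    EditStep (c :: x) (c :: y) := by
  obtain ⟨u, v, a, b, h⟩ := h
  refine ⟨c :: u, v, a, b, ?_⟩
  rcases h with ⟨rfl, rfl⟩ | ⟨rfl, rfl⟩ | ⟨rfl, rfl⟩ <;> simp

lemma Reach.cons {k : ℕ} {x y : List Bool} (c : Bool) (h : Reach k x y) :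
    Reach k (c :: x) (c :: y) := by
  obtain ⟨p, h0, hk, hs⟩ := h
  exact ⟨fun i => c :: p i, by simp [h0], by simp [hk], fun i hi => (hs i hi).cons c⟩

lemma EditStep.symm {x y : List Bool} (h : EditStep x y) : EditStep y x := by
  obtain ⟨u, v, a, b, h⟩ := h
  rcases h with ⟨rfl, rfl⟩ | ⟨rfl, rfl⟩ | ⟨rfl, rfl⟩
  · exact ⟨u, v, a, b, Or.inr (Or.inl ⟨rfl, rfl⟩)⟩
  · exact ⟨u, v, a, b, Or.inl ⟨rfl, rfl⟩⟩
  · exact ⟨u, v, b, a, Or.inr (Or.inr ⟨rfl, rfl⟩)⟩

lemma Reach.symm {k : ℕ} {x y : List Bool} (h : Reach k x y) : Reach k y x := by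
  induction k generalizing x with
  | zero => rw [h.eq_of_zero]; exact reach_zero _
  | succ k ih =>
    obtain ⟨w, hw, hr⟩ := h.induct
    exact (ih hr).trans (Reach.step hw.symm (reach_zero _))

lemma reach_of_sublist {w x : List Bool} (h : w <+ x) : Reach (x.length - w.length) x w := by
  induction h with
  | slnil => exact reach_zero _
  | @cons l₁ l₂ a h ih =>
    have hl := h.length_le
    have : (a :: l₂).length - l₁.length = (l₂.length - l₁.length) + 1 := by simp; omega
    rw [this]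
    exact Reach.step ⟨[], l₂, a, a, Or.inr (Or.inl ⟨rfl, rfl⟩)⟩ ih
  | @cons_cons l₁ l₂ a h ih =>
    have : (a :: l₂).length - (a :: l₁).length = l₂.length - l₁.length := by simp
    rw [this]
    exact ih.cons a

lemma ED_le_of_reach {k : ℕ} {x y : List Bool} (h : Reach k x y) : ED x y ≤ k :=
  Nat.sInf_le h

lemma ED_le_of_sublist {w x y : List Bool} (hx : w <+ x) (hy : w <+ y) :
    ED x y + 2 * w.length ≤ x.length + y.length := by
  have := ED_le_of_reach ((reach_of_sublist hx).trans (reach_of_sublist hy).symm)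
  have h1 := hx.length_le
  have h2 := hy.length_le
  omega

lemma reach_ED (x y : List Bool) : Reach (ED x y) x y := by
  have : {k : ℕ | Reach k x y}.Nonempty :=
    ⟨_, (reach_of_sublist (nil_sublist x)).trans (reach_of_sublist (nil_sublist y)).symm⟩
  exact Nat.sInf_mem this

lemma EditStep.sublist {x y w : List Bool} (h : EditStep x y) (hw : w <+ y) :
    ∃ w', w' <+ x ∧ w' <+ w ∧ w.length + x.length ≤ w'.length + y.length + 1 ∧
      w.length ≤ w'.length + 1 := by
  obtain ⟨u, v, a, b, h⟩ := h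
  have key : ∀ c : Bool, w <+ u ++ c :: v →
      ∃ w', w' <+ u ++ v ∧ w' <+ w ∧ w.length ≤ w'.length + 1 := by
    intro c hc
    obtain ⟨l₁, l₂, rfl, h₁, h₂⟩ := sublist_append_iff.1 hc
    refine ⟨l₁ ++ l₂.tail, h₁.append (by simpa using h₂.tail), (Sublist.refl _).append (tail_sublist _), ?_⟩
    simp; omega
  rcases h with ⟨rfl, rfl⟩ | ⟨rfl, rfl⟩ | ⟨rfl, rfl⟩
  · obtain ⟨w', h1, h2, h3⟩ := key a hw
    exact ⟨w', h1, h2, by simp; omega, h3⟩
  · refine ⟨w, hw.trans ((Sublist.refl _).append (sublist_cons_self _ _)), Sublist.refl _, ?_, by omega⟩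
    simp; omega
  · obtain ⟨w', h1, h2, h3⟩ := key b hw
    exact ⟨w', h1.trans ((Sublist.refl _).append (sublist_cons_self _ _)), h2, by simp; omega, h3⟩

lemma Reach.exists_common {k : ℕ} {x y : List Bool} (h : Reach k x y) :
    ∃ w, w <+ x ∧ w <+ y ∧ y.length ≤ w.length + k := by
  induction k generalizing x with
  | zero => rw [h.eq_of_zero]; exact ⟨y, Sublist.refl _, Sublist.refl _, by simp⟩
  | succ k ih =>
    obtain ⟨z, hz, hr⟩ := h.induct
    obtain ⟨w, h1, h2, h3⟩ := ih hr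
    obtain ⟨w', h4, h5, -, h7⟩ := hz.sublist h1
    exact ⟨w', h4, h5.trans h2, by omega⟩

lemma exists_common_ED (x y : List Bool) :
    ∃ w, w <+ x ∧ w <+ y ∧ y.length ≤ w.length + ED x y := (reach_ED x y).exists_common

lemma eq_of_ED_eq_zero {x y : List Bool} (h : ED x y = 0) : x = y := by
  have := reach_ED x y
  rw [h] at this
  exact this.eq_of_zero

lemma ED_self (x : List Bool) : ED x x = 0 := Nat.le_zero.1 (ED_le_of_reach (reach_zero x))

lemma ED_comm (x y : List Bool) : ED x y = ED y x :=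
  le_antisymm (ED_le_of_reach (reach_ED y x).symm) (ED_le_of_reach (reach_ED x y).symm)

lemma ED_triangle (x y z : List Bool) : ED x z ≤ ED x y + ED y z :=
  ED_le_of_reach ((reach_ED x y).trans (reach_ED y z))

end Vale.Agent.P238
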