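import Vale.Agent.P238.Bound

namespace Vale.Agent.P238

lemma hundred_le (a : ℕ) (ha : 10 ≤ a) : 100 * a ≤ 2 ^ a := by
  induction a, ha using Nat.le_induction with
  | base => norm_num
  | succ a ha ih => rw [pow_succ]; omega

lemma nth_prime_le (a : ℕ) (ha : 10 ≤ a) (i : ℕ) (hi : i < 2 ^ (4 * a)) :
    Nat.nth Nat.Prime i ≤ 2 ^ (8 * a) := by
  have h1 := Chebyshev.pi_ge (2 ^ (8 * a))
  have hl : 0 < Real.log 2 := Real.log_pos (by norm_num)
  have ha' : (10 : ℝ) ≤ a := by exact_mod_cast ha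
  have h2 : Real.log ((2 ^ (8 * a) : ℕ) : ℝ) = 8 * a * Real.log 2 := by
    push_cast; rw [Real.log_pow]; push_cast; ring
  have h3 : Real.log (((2 ^ (8 * a) : ℕ) : ℝ) + 1) ≤ (8 * a + 1) * Real.log 2 := by
    have : ((2 ^ (8 * a) : ℕ) : ℝ) + 1 ≤ 2 ^ (8 * a + 1) := by
      have : (1 : ℝ) ≤ 2 ^ (8 * a) := one_le_pow₀ (by norm_num)
      push_cast; rw [pow_succ]; linarith
    refine (Real.log_le_log (by positivity) this).trans ?_
    rw [Real.log_pow]; push_cast; rfl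
  have h4 : 2 ^ (4 * a) * (8 * a) + (8 * a + 1) ≤ 2 ^ (8 * a) := by
    have h5 := hundred_le (4 * a) (by omega)
    have h6 : 2 ^ (8 * a) = 2 ^ (4 * a) * 2 ^ (4 * a) := by rw [← pow_add]; congr 1; ring
    rw [h6]
    nlinarith
  have h4' : (2 : ℝ) ^ (4 * a) * (8 * a) + (8 * a + 1) ≤ 2 ^ (8 * a) := by exact_mod_cast h4
  have h7 : ((2 ^ (4 * a) : ℕ) : ℝ) ≤ Nat.primeCounting (2 ^ (8 * a)) := by
    refine le_trans ?_ h1
    rw [h2, le_div_iff₀ (by positivity)]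
    push_cast at h3 ⊢
    nlinarith
  have h8 : 2 ^ (4 * a) ≤ Nat.primeCounting (2 ^ (8 * a)) := by exact_mod_cast h7
  have h9 : i < Nat.count Nat.Prime (2 ^ (8 * a) + 1) := hi.trans_le h8
  have := Nat.nth_lt_of_lt_count h9
  omega

section arith
variable {a h : ℕ} (ha : 10 ≤ a) (h100 : 100 * a ≤ h)
include ha h100

lemma ar1 : a * h + 1 + 20 * a * h ≤ 1 + 21 * a * h := by nlinarith

lemma ar2 : 1 + 21 * a * h + (8 * a + 1) * h + 1 < 31 * a * h := by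
  have hah' : 10 * h ≤ a * h := Nat.mul_le_mul_right _ ha
  nlinarith

lemma ar3 : 8 * a * (h + 2) + (2 * a + 1) + (10 * a + 1) * h + 2 ≤ 20 * a * h := by
  have hah : a * 1000 ≤ a * h := Nat.mul_le_mul_left _ (by omega)
  have hah' : 10 * h ≤ a * h := Nat.mul_le_mul_right _ ha
  nlinarith

lemma ar4 : 2 * (9 * a * (h * h)) + 3 ≤ h * (h * h) := by
  have h1 : 100 * a * (h * h) ≤ h * (h * h) := Nat.mul_le_mul_right _ h100
  have h0 : 0 < h := by omega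
  have h0' : 0 < a := by omega
  have h3 : 1 ≤ a * (h * h) := Nat.one_le_iff_ne_zero.2 (by positivity)
  nlinarith

lemma ar5 {h2 : ℕ} (hh' : h = 2 * h2) : a * h2 + (5 + 3 * a + 3 * h) ≤ a * h + 1 := by
  have : 10 * h2 ≤ a * h2 := Nat.mul_le_mul_right _ ha
  subst hh'
  nlinarith

lemma ar6 : 2 + (10 * a + 1) * h + a * h ≤ 20 * a * h := by
  have hah' : 10 * h ≤ a * h := Nat.mul_le_mul_right _ ha
  nlinarith

lemma ar7 : 8 * a * (h * h) + (2 * a + 1) * h ≤ 9 * a * (h * h) := by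
  have hah' : 10 * h ≤ a * h := Nat.mul_le_mul_right _ ha
  have : a * h * 1000 ≤ a * h * h := Nat.mul_le_mul_left _ (by omega)
  nlinarith

lemma ar8 : 3 * a + (1 + 21 * a * h + 1 + 2 * a) * h ≤ 23 * a * (h * h) := by
  have hah : a * 1000 ≤ a * h := Nat.mul_le_mul_left _ (by omega)
  have hah' : 10 * h ≤ a * h := Nat.mul_le_mul_right _ ha
  have : a * h * 1000 ≤ a * h * h := Nat.mul_le_mul_left _ (by omega)
  nlinarith

lemma ar9 : (h + 1) * (h * h) ≤ (h * h) * (h * h) := Nat.mul_le_mul_right _ (by nlinarith)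

lemma ar10 : h * h + 2 ≤ h * h * 2 := by nlinarith

end arith

lemma eta_bound (h sh : ℕ) (T : ℝ) (hT : 0 ≤ T) (h0 : 1 ≤ h) (hsh : 0 < sh)
    (h1' : (4 : ℝ) * T * h ^ h ≤ sh) : (4 / (sh : ℝ) * T) ^ 2 ≤ 8 / (2 * (h : ℝ) ^ h) := by
  have hsh' : (0 : ℝ) < sh := by exact_mod_cast hsh
  have h3 : (1 : ℝ) ≤ (h : ℝ) ^ h := one_le_pow₀ (by exact_mod_cast h0)
  have h5 : 4 / (sh : ℝ) * T ≤ 1 / (h : ℝ) ^ h := by
    rw [div_mul_eq_mul_div, div_le_div_iff₀ hsh' (by positivity)]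
    linarith
  have h6 : 1 / (h : ℝ) ^ h ≤ 1 := (div_le_one (by positivity)).2 h3
  calc (4 / (sh : ℝ) * T) ^ 2 ≤ (1 / (h : ℝ) ^ h) ^ 2 := by gcongr
    _ = 1 / (h : ℝ) ^ h * (1 / (h : ℝ) ^ h) := by ring
    _ ≤ 4 * (1 / (h : ℝ) ^ h) := by gcongr; linarith
    _ = 8 / (2 * (h : ℝ) ^ h) := by field_simp; norm_num

lemma lower_pow (a : ℕ) (ha : 10 ≤ a) (N : ℕ) (hN : 2 ^ (23 * a * 4 ^ a) ≤ N) :
    (2 : ℝ) ^ (a * 2 ^ (a - 1)) ≤
      c1 (Fin N → Bool) fun x y => (ED (List.ofFn x) (List.ofFn y) : ℝ) := by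
  have h100 := hundred_le a ha
  obtain ⟨h2, hh2⟩ : ∃ h2, h2 = 2 ^ (a - 1) := ⟨_, rfl⟩
  obtain ⟨h, hh⟩ : ∃ h, h = 2 ^ a := ⟨_, rfl⟩
  have hh' : h = 2 * h2 := by
    rw [hh, hh2, ← pow_succ']; congr 1; omega
  have h4a : 4 ^ a = h * h := by rw [hh, ← mul_pow]; norm_num
  rw [← hh] at h100
  rw [h4a] at hN
  rw [← hh2]
  obtain ⟨κ, hκ⟩ : ∃ κ, κ = h2 * h2 := ⟨_, rfl⟩
  obtain ⟨K, hK⟩ : ∃ K, K = 2 ^ (2 * a) := ⟨_, rfl⟩
  have hKh : K = h * h := by rw [hK, hh, ← pow_add]; congr 1; ring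
  have hKκ : K = 4 * κ := by rw [hKh, hκ, hh']; ring
  obtain ⟨Y, hY⟩ : ∃ Y, Y = 2 ^ (8 * a) := ⟨_, rfl⟩
  obtain ⟨sh, hsh⟩ : ∃ sh, sh = 2 ^ (20 * a * h) := ⟨_, rfl⟩
  obtain ⟨m, hm⟩ : ∃ m, m = 2 ^ (1 + 21 * a * h) := ⟨_, rfl⟩
  have hhh : h ^ h = 2 ^ (a * h) := by rw [pow_mul, ← hh]
  have h2KY : 2 * K * Y = 2 ^ (10 * a + 1) := by
    rw [hK, hY, ← pow_succ', ← pow_add]; congr 1; ring
  have hK1 : 1 ≤ K := by rw [hK]; exact Nat.one_le_two_pow
  have hsh0 : 0 < sh := by rw [hsh]; positivity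
  let p : ℕ → Fin K → ℕ := fun j k => Nat.nth Nat.Prime (j * K + k)
  have hinj := Nat.nth_injective Nat.infinite_setOfPred_prime
  obtain ⟨s⟩ := tower K κ Y m sh h h (31 * a * h) p (fun j k => Nat.prime_nth_prime _)
    (fun j k k' e => Fin.ext (by have := hinj e; omega))
    (fun j k k' e => by
      have := hinj e
      have := k.2
      rw [add_mul] at *
      omega)
    (fun j hj k => by
      rw [hY]
      apply nth_prime_le a ha
      have h1 : j * K ≤ h * K := Nat.mul_le_mul_right _ hj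
      have h3 : 2 ^ (4 * a) = K * K := by rw [hK, ← pow_add]; congr 1; ring
      have := k.2
      have h5 : (h + 1) * K ≤ K * K := by rw [hKh]; exact ar9 ha h100
      rw [h3]
      rw [add_mul] at h5
      omega)
    hK1 (by rw [hY]; exact Nat.one_le_two_pow) (by omega) hsh0
    (by
      rw [hhh, hsh, hm, ← pow_succ', ← pow_add]
      exact Nat.pow_le_pow_right (by norm_num) (ar1 ha h100))
    (by
      rw [hm, hY, ← pow_succ', ← pow_mul, ← pow_add, ← pow_succ']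
      exact Nat.pow_lt_pow_right (by norm_num) (ar2 ha h100))
    (by
      have : 62 * a * h ≤ h * h := Nat.mul_le_mul_right _ (by omega)
      have e : 62 * a * h = 2 * (31 * a * h) := by ring
      omega)
    (by
      have h1 : K + 2 ≤ 2 ^ (2 * a + 1) := by
        rw [pow_succ, ← hK, hKh]; exact ar10 ha h100
      calc Y ^ (h + 2) * (K + 2) * (2 * K * Y) ^ h * 4
          ≤ Y ^ (h + 2) * 2 ^ (2 * a + 1) * (2 * K * Y) ^ h * 2 ^ 2 := by gcongr; norm_num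
        _ ≤ sh := by
          rw [h2KY, hY, hsh, ← pow_mul, ← pow_mul, ← pow_add, ← pow_add, ← pow_add]
          exact Nat.pow_le_pow_right (by norm_num) (ar3 ha h100))
    h le_rfl
  have hlam : 2 * (9 * a * (h * h)) + 3 ≤ 2 ^ (3 * a) := by
    have e : 2 ^ (3 * a) = h * (h * h) := by rw [mul_comm 3 a, pow_mul, ← hh]; ring
    rw [e]; exact ar4 ha h100
  have hm1 : 1 ≤ m := by rw [hm]; exact Nat.one_le_two_pow
  have hκ1 : 1 ≤ κ := by omega
  have hpos : (0 : ℝ) < h := by exact_mod_cast (by omega : 0 < h)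
  have key := s.c1_ge ⟨0, hK1⟩ (Nat.prime_nth_prime _).two_le (by simpa using hm1)
    (by positivity) ?_ (9 * a * (h * h)) ?_ N ?_ (by positivity)
  · refine le_trans ?_ key
    rw [le_div_iff₀ (by positivity)]
    have h1 : 2 ^ (a * h2) * (32 * (2 * (9 * a * (h * h)) + 3) * (2 * m * K) ^ h) ≤
        (m * κ) ^ h * (2 * h ^ h) := by
      have e1 : (2 * m * K) ^ h = 2 ^ (3 * h) * (m * κ) ^ h := by
        rw [pow_mul, ← mul_pow, hKκ]; congr 1; ring
      have h3 : 2 ^ (a * h2) * (2 ^ 5 * 2 ^ (3 * a) * 2 ^ (3 * h)) ≤ 2 * h ^ h := by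
        rw [hhh, ← pow_succ', ← pow_add, ← pow_add, ← pow_add]
        exact Nat.pow_le_pow_right (by norm_num) (ar5 ha h100 hh')
      calc _ = 2 ^ (a * h2) * (2 ^ 5 * (2 * (9 * a * (h * h)) + 3) * 2 ^ (3 * h)) * (m * κ) ^ h := by
            rw [e1]; ring
        _ ≤ 2 ^ (a * h2) * (2 ^ 5 * 2 ^ (3 * a) * 2 ^ (3 * h)) * (m * κ) ^ h := by gcongr
        _ ≤ (2 * h ^ h) * (m * κ) ^ h := by gcongr
        _ = _ := by ring
    exact_mod_cast h1
  · have h1 : 4 * (2 * K * Y) ^ h * h ^ h ≤ sh := by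
      rw [h2KY, hhh, hsh, ← pow_mul, show 4 = 2 ^ 2 by norm_num, ← pow_add, ← pow_add]
      exact Nat.pow_le_pow_right (by norm_num) (ar6 ha h100)
    exact eta_bound h sh _ (by positivity) (by omega) hsh0 (by exact_mod_cast h1)
  · rw [hY, ← pow_mul, hK, ← pow_succ', ← pow_mul, ← pow_add, ← hK, hKh]
    exact Nat.pow_le_pow_right (by norm_num) (ar7 ha h100)
  · refine le_trans ?_ hN
    calc (2 * (9 * a * (h * h)) + 3) * (2 * m * K) ^ h ≤ 2 ^ (3 * a) * (2 * m * K) ^ h := by gcongr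
      _ ≤ _ := by
        rw [hm, hK, ← pow_succ', ← pow_add, ← pow_mul, ← pow_add]
        exact Nat.pow_le_pow_right (by norm_num) (ar8 ha h100)

theorem lower_bound : ∃ N₀ : ℕ, ∀ n ≥ N₀,
    Real.exp (1 / 100 * Real.sqrt (Real.log n * Real.log (Real.log n))) ≤
      c1 (Fin n → Bool) fun x y => (ED (List.ofFn x) (List.ofFn y) : ℝ) := by
  obtain ⟨a₀, ha₀⟩ : ∃ a₀ : ℕ, 10 ≤ a₀ := ⟨10, le_rfl⟩
  refine ⟨2 ^ (23 * a₀ * 4 ^ a₀), fun n hn => ?_⟩
  have hex : ∃ i, n < 2 ^ (23 * (a₀ + i + 1) * 4 ^ (a₀ + i + 1)) := by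
    refine ⟨n, lt_of_lt_of_le (Nat.lt_two_pow_self (n := n)) (Nat.pow_le_pow_right (by norm_num) ?_)⟩
    have : 1 ≤ 4 ^ (a₀ + n + 1) := Nat.one_le_pow _ _ (by norm_num)
    nlinarith
  classical
  obtain ⟨a, ha, h1, h2⟩ : ∃ a, 10 ≤ a ∧ 2 ^ (23 * a * 4 ^ a) ≤ n ∧
      n < 2 ^ (23 * (a + 1) * 4 ^ (a + 1)) := by
    refine ⟨a₀ + Nat.find hex, by omega, ?_, Nat.find_spec hex⟩
    rcases Nat.eq_zero_or_pos (Nat.find hex) with h0 | h0
    · rw [h0]; exact hn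
    · have := Nat.find_min hex (m := Nat.find hex - 1) (by omega)
      rw [show a₀ + (Nat.find hex - 1) + 1 = a₀ + Nat.find hex by omega] at this
      omega
  refine le_trans ?_ (lower_pow a ha n h1)
  have h100 := hundred_le a ha
  obtain ⟨h, hh⟩ : ∃ h, h = 2 ^ a := ⟨_, rfl⟩
  have hh' : h = 2 * 2 ^ (a - 1) := by
    rw [hh, ← pow_succ']; congr 1; omega
  have h4a : 4 ^ (a + 1) = 4 * (h * h) := by rw [pow_succ, hh, ← mul_pow]; ring
  rw [← hh] at h100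
  rw [h4a] at h2
  have hn2 : 2 ≤ n := by
    refine le_trans ?_ h1
    calc 2 = 2 ^ 1 := rfl
      _ ≤ _ := Nat.pow_le_pow_right (by norm_num) (Nat.one_le_iff_ne_zero.2 (by positivity))
  have hl2 : Real.log 2 ≤ 1 := by have := Real.log_two_lt_d9; linarith
  have hl2' : 0.69 ≤ Real.log 2 := by have := Real.log_two_gt_d9; linarith
  have hlogpos : 0 < Real.log n := Real.log_pos (by exact_mod_cast hn2)
  have ha' : (10 : ℝ) ≤ a := by exact_mod_cast ha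
  have hh0 : (0 : ℝ) ≤ h := Nat.cast_nonneg _
  have hlog : Real.log n ≤ 184 * a * (h * h) := by
    have h3 : (n : ℝ) ≤ 2 ^ (23 * (a + 1) * (4 * (h * h))) := by exact_mod_cast h2.le
    have h4 := Real.log_le_log (by positivity) h3
    rw [Real.log_pow] at h4
    push_cast at h4
    calc Real.log n ≤ 23 * (a + 1) * (4 * (h * h)) * Real.log 2 := h4
      _ ≤ 23 * (a + a) * (4 * (h * h)) * 1 := by gcongr; linarith
      _ = _ := by ring
  have hloglog : Real.log (Real.log n) ≤ 4 * a := by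
    have h3 : 184 * a * (h * h) ≤ 2 ^ (4 * a) := by
      have e : 2 ^ (4 * a) = (h * h) * (h * h) := by rw [mul_comm 4 a, pow_mul, ← hh]; ring
      rw [e]
      exact Nat.mul_le_mul_right _ (by nlinarith)
    have h3' : (184 : ℝ) * a * (h * h) ≤ 2 ^ (4 * a) := by exact_mod_cast h3
    have h4 := Real.log_le_log hlogpos (hlog.trans h3')
    rw [Real.log_pow] at h4
    push_cast at h4
    calc _ ≤ 4 * a * Real.log 2 := h4
      _ ≤ 4 * a * 1 := by gcongr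
      _ = _ := by ring
  have hsqrt : Real.sqrt (Real.log n * Real.log (Real.log n)) ≤ 28 * a * h := by
    rw [Real.sqrt_le_left (by positivity)]
    calc Real.log n * Real.log (Real.log n) ≤ Real.log n * (4 * a) := by gcongr
      _ ≤ 184 * a * (h * h) * (4 * a) := by gcongr
      _ = 736 * (a * h) ^ 2 := by ring
      _ ≤ 784 * (a * h) ^ 2 := by gcongr; norm_num
      _ = _ := by ring
  have e : (2 : ℝ) ^ (a * 2 ^ (a - 1)) = Real.exp ((a * 2 ^ (a - 1) : ℕ) * Real.log 2) := by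
    rw [Real.exp_nat_mul, Real.exp_log (by norm_num)]
  rw [e]
  apply Real.exp_le_exp.2
  have e2 : ((a * 2 ^ (a - 1) : ℕ) : ℝ) = a * h / 2 := by
    rw [hh']; push_cast; ring
  rw [e2]
  have : (0 : ℝ) ≤ a * h := by positivity
  nlinarith

end Vale.Agent.P238
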