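import Vale.Agent.P238.Defs

/-! The cut cone and a thresholded earthmover construction inside it. -/

namespace Vale.Agent.P238.Up

open Finset

/-- `D` is a finite nonnegative combination of cut semimetrics. -/
def IsCut {Y : Type} (D : Y → Y → ℝ) : Prop :=
  ∃ (K : Type) (_ : Fintype K) (w : K → ℝ) (f : K → Y → Bool), (∀ k, 0 ≤ w k) ∧
    ∀ x y, D x y = ∑ k, if f k x = f k y then 0 else w k

variable {Y : Type}

lemma IsCut.nonneg {D : Y → Y → ℝ} (h : IsCut D) (x y : Y) : 0 ≤ D x y := by
  obtain ⟨K, _, w, f, hw, h⟩ := h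
  rw [h]
  exact sum_nonneg fun k _ => by split_ifs; exacts [le_rfl, hw k]

lemma IsCut.symm {D : Y → Y → ℝ} (h : IsCut D) (x y : Y) : D x y = D y x := by
  obtain ⟨K, _, w, f, hw, h⟩ := h
  rw [h, h]
  exact sum_congr rfl fun k _ => by simp only [eq_comm]

lemma IsCut.self {D : Y → Y → ℝ} (h : IsCut D) (x : Y) : D x x = 0 := by
  obtain ⟨K, _, w, f, hw, h⟩ := h
  simp [h]

lemma IsCut.triangle {D : Y → Y → ℝ} (h : IsCut D) (x y z : Y) : D x z ≤ D x y + D y z := by
  obtain ⟨K, _, w, f, hw, h⟩ := h
  rw [h, h, h, ← sum_add_distrib]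
  refine sum_le_sum fun k _ => ?_
  have := hw k
  cases f k x <;> cases f k y <;> cases f k z <;> simp <;> linarith

lemma isCut_zero : IsCut (fun _ _ : Y => (0 : ℝ)) :=
  ⟨Empty, inferInstance, fun _ => 0, fun _ _ => true, fun _ => le_rfl, by simp⟩

lemma IsCut.add {D E : Y → Y → ℝ} (h : IsCut D) (h' : IsCut E) :
    IsCut (fun x y => D x y + E x y) := by
  obtain ⟨K, _, w, f, hw, h⟩ := h
  obtain ⟨K', _, w', f', hw', h'⟩ := h'
  refine ⟨K ⊕ K', inferInstance, Sum.elim w w', Sum.elim f f', ?_, fun x y => ?_⟩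
  · rintro (k | k)
    exacts [hw k, hw' k]
  · simp only [h, h', Fintype.sum_sum_type]
    rfl

lemma IsCut.smul {D : Y → Y → ℝ} (h : IsCut D) {c : ℝ} (hc : 0 ≤ c) :
    IsCut (fun x y => c * D x y) := by
  obtain ⟨K, _, w, f, hw, h⟩ := h
  refine ⟨K, inferInstance, fun k => c * w k, f, fun k => mul_nonneg hc (hw k), fun x y => ?_⟩
  simp only [h, mul_sum]
  exact sum_congr rfl fun k _ => by split_ifs <;> simp

lemma IsCut.comp {Z : Type} {D : Y → Y → ℝ} (h : IsCut D) (g : Z → Y) :
    IsCut (fun x y => D (g x) (g y)) := by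
  obtain ⟨K, _, w, f, hw, h⟩ := h
  exact ⟨K, inferInstance, w, fun k z => f k (g z), hw, fun x y => h _ _⟩

lemma isCut_sum {ι : Type} (s : Finset ι) {D : ι → Y → Y → ℝ} (h : ∀ i ∈ s, IsCut (D i)) :
    IsCut (fun x y => ∑ i ∈ s, D i x y) := by
  classical
  induction s using Finset.induction_on with
  | empty => simpa using isCut_zero
  | insert a s ha ih =>
    simp only [sum_insert ha]
    exact (h a (mem_insert_self _ _)).add (ih fun i hi => h i (mem_insert_of_mem hi))

lemma isCut_bool (f : Y → Bool) : IsCut (fun x y => if f x = f y then (0 : ℝ) else 1) :=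
  ⟨Unit, inferInstance, fun _ => 1, fun _ => f, fun _ => zero_le_one, by simp⟩

lemma abs_eq_sum (N a b : ℕ) (ha : a ≤ N) (hb : b ≤ N) :
    |(a : ℝ) - b| = ∑ m ∈ range N, if decide (m < a) = decide (m < b) then (0 : ℝ) else 1 := by
  wlog hab : a ≤ b generalizing a b
  · rw [abs_sub_comm, this b a hb ha (by omega)]
    exact sum_congr rfl fun k _ => by simp only [eq_comm]
  have h1 : ∀ m, (if decide (m < a) = decide (m < b) then (0 : ℝ) else 1) =
      if m ∈ Ico a b then 1 else 0 := by
    intro m
    by_cases h1 : m < a <;> by_cases h2 : m < b <;> simp [h1, h2] <;> omega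
  simp only [h1]
  rw [sum_ite_mem, sum_const, show range N ∩ Ico a b = Ico a b from
    inter_eq_right.2 fun m hm => by simp at hm ⊢; omega]
  have : (a : ℝ) ≤ b := by exact_mod_cast hab
  rw [abs_sub_comm, abs_of_nonneg (sub_nonneg.2 this)]
  simp [Nat.cast_sub hab]

lemma isCut_nat (g : Y → ℕ) (N : ℕ) (hg : ∀ x, g x ≤ N) :
    IsCut (fun x y => |(g x : ℝ) - g y|) := by
  have := isCut_sum (range N) (D := fun m x y =>
    if decide (m < g x) = decide (m < g y) then (0 : ℝ) else 1)
    fun m _ => isCut_bool fun x => decide (m < g x)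
  convert this using 3 with x y
  exact abs_eq_sum N _ _ (hg x) (hg y)

section hist

variable {C J : Type} [Fintype C] [DecidableEq C] [Fintype J]

/-- the distance between the histograms of two tuples -/
noncomputable def hd (u v : J → C) : ℝ :=
  ∑ c, |((univ.filter fun j => u j = c).card : ℝ) - (univ.filter fun j => v j = c).card|

lemma isCut_hd (H : Y → J → C) : IsCut (fun x y => hd (H x) (H y)) :=
  isCut_sum univ (D := fun c x y =>
      |((univ.filter fun j => H x j = c).card : ℝ) - (univ.filter fun j => H y j = c).card|)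
    fun c _ => isCut_nat (fun x => (univ.filter fun j => H x j = c).card) (Fintype.card J)
      fun _ => card_le_univ _

lemma hd_le (u v : J → C) (σ : Equiv.Perm J) :
    hd u v ≤ 2 * ∑ j, (1 - if u j = v (σ j) then (1 : ℝ) else 0) := by
  have h1 : ∀ c, ((univ.filter fun j => v j = c).card : ℝ) =
      ∑ j, if v (σ j) = c then (1 : ℝ) else 0 := by
    intro c
    rw [card_filter, Nat.cast_sum, ← Equiv.sum_comp σ]
    simp
  have h2 : ∀ c, ((univ.filter fun j => u j = c).card : ℝ) =
      ∑ j, if u j = c then (1 : ℝ) else 0 := by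
    intro c
    rw [card_filter, Nat.cast_sum]
    simp
  unfold hd
  simp only [h1, h2, ← sum_sub_distrib]
  refine (sum_le_sum fun c _ => abs_sum_le_sum_abs _ _).trans ?_
  rw [sum_comm, mul_sum]
  refine sum_le_sum fun j _ => ?_
  by_cases h : u j = v (σ j)
  · simp [h]
  · calc ∑ c, |(if u j = c then (1 : ℝ) else 0) - if v (σ j) = c then 1 else 0|
        ≤ ∑ c, ((if u j = c then (1 : ℝ) else 0) + if v (σ j) = c then 1 else 0) :=
          sum_le_sum fun c _ => by split_ifs <;> simp
      _ = 2 := by rw [sum_add_distrib]; simp; norm_num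
      _ = _ := by simp [h]

lemma le_hd (u v : J → C) :
    ∑ j, (1 - ∑ j', if u j = v j' then (1 : ℝ) else 0) ≤ hd u v := by
  classical
  let S : Finset C := univ.filter fun c => ∀ j', v j' ≠ c
  calc ∑ j, (1 - ∑ j', if u j = v j' then (1 : ℝ) else 0)
      ≤ ∑ j, ∑ c ∈ S, if u j = c then (1 : ℝ) else 0 := by
        refine sum_le_sum fun j _ => ?_
        by_cases h : u j ∈ S
        · rw [sum_ite_eq S (u j) (fun _ => (1 : ℝ)), if_pos h]
          have : 0 ≤ ∑ j', if u j = v j' then (1 : ℝ) else 0 :=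
            sum_nonneg fun _ _ => by split_ifs <;> norm_num
          linarith
        · rw [sum_ite_eq S (u j) (fun _ => (1 : ℝ)), if_neg h]
          simp only [S, mem_filter, mem_univ, true_and, not_forall, not_not] at h
          obtain ⟨j', hj'⟩ := h
          have := single_le_sum (f := fun j' => if u j = v j' then (1 : ℝ) else 0)
            (fun _ _ => by split_ifs <;> norm_num) (mem_univ j')
          simp only [hj', if_true] at this
          linarith
    _ = ∑ c ∈ S, |((univ.filter fun j => u j = c).card : ℝ) -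
          (univ.filter fun j => v j = c).card| := by
        rw [sum_comm]
        refine sum_congr rfl fun c hc => ?_
        have h0 : (univ.filter fun j => v j = c) = ∅ := by
          simp only [S, mem_filter, mem_univ, true_and] at hc
          simpa using hc
        rw [h0, card_filter, Nat.cast_sum]
        simp
    _ ≤ hd u v := sum_le_sum_of_subset_of_nonneg (subset_univ _) fun _ _ _ => abs_nonneg _

end hist

/-- A random partition whose collision probabilities are `exp (- D / t)`. -/
lemma IsCut.hash {D : Y → Y → ℝ} (h : IsCut D) {t : ℝ} (ht : 0 < t) :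
    ∃ (R C : Type) (_ : Fintype R) (_ : Fintype C) (_ : DecidableEq C) (p : R → ℝ)
      (H : R → Y → C), (∀ r, 0 ≤ p r) ∧ ∑ r, p r = 1 ∧
      ∀ x y, ∑ r, p r * (if H r x = H r y then 1 else 0) = Real.exp (-(D x y / t)) := by
  classical
  obtain ⟨K, _, w, f, hw, h⟩ := h
  let q : K → Bool → ℝ := fun k b => if b then 1 - Real.exp (-(w k / t)) else Real.exp (-(w k / t))
  have hq : ∀ k b, 0 ≤ q k b := by
    intro k b
    have h1 : Real.exp (-(w k / t)) ≤ 1 :=
      Real.exp_le_one_iff.2 (neg_nonpos.2 (div_nonneg (hw k) ht.le))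
    cases b
    · exact (Real.exp_pos _).le
    · simpa [q] using h1
  refine ⟨K → Bool, K → Bool, inferInstance, inferInstance, inferInstance,
    fun r => ∏ k, q k (r k), fun r x k => r k && f k x, fun r => prod_nonneg fun k _ => hq _ _,
    ?_, fun x y => ?_⟩
  · rw [← Fintype.prod_sum]
    simp [q]
  · have e1 : ∀ r : K → Bool, (∏ k, q k (r k)) *
        (if (fun k => r k && f k x) = (fun k => r k && f k y) then (1 : ℝ) else 0) =
        ∏ k, (q k (r k) * if (r k && f k x) = (r k && f k y) then 1 else 0) := by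
      intro r
      rw [prod_mul_distrib, Fintype.prod_boole]
      simp only [funext_iff]
    simp only [e1]
    rw [← Fintype.prod_sum (fun k b => q k b * if (b && f k x) = (b && f k y) then (1 : ℝ) else 0),
      h, sum_div, ← sum_neg_distrib, Real.exp_sum]
    refine prod_congr rfl fun k _ => ?_
    by_cases hk : f k x = f k y
    · simp [q, hk]
    · simp [q, hk]

/-- The thresholded earthmover distance between `s`-tuples, up to a logarithmic loss. -/
lemma IsCut.emd {Z : Type} {D : Y → Y → ℝ} (h : IsCut D) (s : ℕ) (hs : 0 < s)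
    (a : Z → Fin s → Y) :
    ∃ E : Z → Z → ℝ, IsCut E ∧
      (∀ x y (σ : Equiv.Perm (Fin s)), E x y ≤ 2 * ∑ j, min 1 (D (a x j) (a y (σ j)) / s)) ∧
      ∀ x y, (∀ j j', s * Real.log (2 * s) ≤ D (a x j) (a y j')) → (s : ℝ) / 2 ≤ E x y := by
  have hs' : (0 : ℝ) < s := by exact_mod_cast hs
  obtain ⟨R, C, _, _, _, p, H, hp, hp1, hH⟩ := h.hash hs'
  refine ⟨fun x y => ∑ r, p r * hd (fun j => H r (a x j)) (fun j => H r (a y j)),
    isCut_sum univ fun r _ => (isCut_hd fun x j => H r (a x j)).smul (hp r), fun x y σ => ?_,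
    fun x y hxy => ?_⟩
  · calc ∑ r, p r * hd (fun j => H r (a x j)) (fun j => H r (a y j))
        ≤ ∑ r, p r * (2 * ∑ j, (1 - if H r (a x j) = H r (a y (σ j)) then (1 : ℝ) else 0)) :=
          sum_le_sum fun r _ => mul_le_mul_of_nonneg_left (hd_le _ _ σ) (hp r)
      _ = 2 * ∑ j, (1 - Real.exp (-(D (a x j) (a y (σ j)) / s))) := by
          simp only [← hH, mul_sum]
          rw [sum_comm]
          refine sum_congr rfl fun j _ => ?_
          rw [← hp1, ← sum_sub_distrib, mul_sum]
          refine sum_congr rfl fun r _ => ?_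
          rw [hp1]; ring
      _ ≤ _ := by
          refine mul_le_mul_of_nonneg_left (sum_le_sum fun j _ => le_min ?_ ?_) (by norm_num)
          · linarith [Real.exp_pos (-(D (a x j) (a y (σ j)) / s))]
          · linarith [Real.add_one_le_exp (-(D (a x j) (a y (σ j)) / s))]
  · calc (s : ℝ) / 2 = ∑ _j : Fin s, (1 - ∑ _j' : Fin s, 1 / (2 * (s : ℝ))) := by
          simp; field_simp; ring
      _ ≤ ∑ j : Fin s, (1 - ∑ j' : Fin s, Real.exp (-(D (a x j) (a y j') / s))) := by
          refine sum_le_sum fun j _ => sub_le_sub_left (sum_le_sum fun j' _ => ?_) _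
          have h1 : Real.log (2 * s) ≤ D (a x j) (a y j') / s := by
            rw [le_div_iff₀ hs', mul_comm]; exact hxy j j'
          calc Real.exp (-(D (a x j) (a y j') / s)) ≤ Real.exp (-Real.log (2 * s)) :=
                Real.exp_le_exp.2 (neg_le_neg h1)
            _ = _ := by rw [Real.exp_neg, Real.exp_log (by positivity), one_div]
      _ = ∑ r, p r * ∑ j : Fin s,
            (1 - ∑ j' : Fin s, if H r (a x j) = H r (a y j') then (1 : ℝ) else 0) := by
          simp only [← hH, mul_sum]
          rw [sum_comm]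
          refine sum_congr rfl fun j _ => ?_
          simp only [mul_sub, mul_one, sum_sub_distrib, hp1, mul_sum]
          rw [sum_comm]
      _ ≤ _ := sum_le_sum fun r _ => mul_le_mul_of_nonneg_left (le_hd _ _) (hp r)

/-- Two-sided comparison with a cut combination bounds the least distortion. -/
lemma c1_le {X : Type} (ρ D : X → X → ℝ) (hD : IsCut D) (hpos : ∀ x y, x ≠ y → 0 < ρ x y)
    {A B : ℝ} (hA : 0 ≤ A) (hB : 0 ≤ B) (h1 : ∀ x y, D x y ≤ A * ρ x y)
    (h2 : ∀ x y, ρ x y ≤ B * D x y) : c1 X ρ ≤ A * B := by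
  classical
  obtain ⟨K, _, w, f, hw, h⟩ := hD
  let e := Fintype.equivFin K
  let g : X → ℕ → ℝ := fun x n =>
    if hn : n < Fintype.card K then (if f (e.symm ⟨n, hn⟩) x then w (e.symm ⟨n, hn⟩) else 0) else 0
  let F : X → lp (fun _ : ℕ => ℝ) 1 := fun x =>
    ∑ n ∈ range (Fintype.card K), lp.single 1 n (g x n)
  have hF : ∀ x y, ‖F x - F y‖ = D x y := by
    intro x y
    have e1 : F x - F y = ∑ n ∈ range (Fintype.card K), lp.single 1 n (g x n - g y n) := by
      simp only [F, ← sum_sub_distrib, lp.single_sub]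
    have e2 := lp.norm_sum_single (E := fun _ : ℕ => ℝ) (p := 1) (by simp)
      (fun n => g x n - g y n) (range (Fintype.card K))
    simp only [ENNReal.toReal_one, Real.rpow_one] at e2
    rw [e1, e2, h, ← Fin.sum_univ_eq_sum_range (fun n => ‖g x n - g y n‖), ← Equiv.sum_comp e]
    refine sum_congr rfl fun k _ => ?_
    have := hw k
    simp only [g, Fin.is_lt, dif_pos, Fin.eta, Equiv.symm_apply_apply]
    cases f k x <;> cases f k y <;> simp [abs_of_nonneg this]
  have hDpos : ∀ x y, x ≠ y → 0 < D x y := by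
    intro x y hxy
    by_contra hle
    have := mul_le_mul_of_nonneg_left (not_lt.1 hle) hB
    linarith [hpos x y hxy, h2 x y]
  have hinj : Function.Injective F := by
    intro x y hxy
    by_contra hne
    have := hDpos x y hne
    rw [← hF, hxy] at this
    simp at this
  have hbdd : BddBelow (Set.range fun f : {f : X → lp (fun _ : ℕ => ℝ) 1 // Function.Injective f} =>
      distortion ρ f.1) := by
    refine ⟨0, ?_⟩
    rintro _ ⟨f, rfl⟩
    exact mul_nonneg (Real.iSup_nonneg fun p => div_nonneg (norm_nonneg _) (hpos _ _ p.2).le)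
      (Real.iSup_nonneg fun p => div_nonneg (hpos _ _ p.2).le (norm_nonneg _))
  refine (ciInf_le hbdd ⟨F, hinj⟩).trans ?_
  refine mul_le_mul (Real.iSup_le (fun p => ?_) hA) (Real.iSup_le (fun p => ?_) hB)
    (Real.iSup_nonneg fun p => div_nonneg (hpos _ _ p.2).le (norm_nonneg _)) hA
  · rw [div_le_iff₀ (hpos _ _ p.2), hF]
    exact h1 _ _
  · rw [hF, div_le_iff₀ (hDpos _ _ p.2)]
    exact h2 _ _

end Vale.Agent.P238.Up
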