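import Vale.Agent.P238.UpCut
import Vale.Agent.P238.EditBasic

/-! The Ostrovsky-Rabani upper bound on the distortion of edit distance. -/

namespace Vale.Agent.P238.Up

open Finset

/-- the first `L` symbols of an infinite word -/
def wd (L : ℕ) (x : ℕ → Bool) : List Bool := (List.range L).map x

/-- the shifted infinite word -/
def sh (o : ℕ) (x : ℕ → Bool) : ℕ → Bool := fun i => x (o + i)

/-- `y` arises from `x` by inserting one symbol at position `p` -/
def Mv (p : ℕ) (x y : ℕ → Bool) : Prop := (∀ i < p, x i = y i) ∧ ∀ i, p ≤ i → y (i + 1) = x i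

lemma Mv.sh {p : ℕ} {x y : ℕ → Bool} (h : Mv p x y) (o : ℕ) : Mv (p - o) (sh o x) (sh o y) :=
  ⟨fun i hi => h.1 _ (by omega), fun i hi => h.2 (o + i) (by omega)⟩

@[simp] lemma length_wd (L : ℕ) (x : ℕ → Bool) : (wd L x).length = L := by simp [wd]

lemma wd_add (a b : ℕ) (x : ℕ → Bool) : wd (a + b) x = wd a x ++ wd b (sh a x) := by
  simp [wd, List.range_add, sh, Function.comp_def]

lemma wd_congr {L : ℕ} {x y : ℕ → Bool} (h : ∀ i < L, x i = y i) : wd L x = wd L y :=
  List.map_congr_left fun i hi => h i (List.mem_range.1 hi)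

lemma wd_sublist {B L j : ℕ} (h : j + L ≤ B) (x : ℕ → Bool) :
    List.Sublist (wd L (sh j x)) (wd B x) := by
  obtain ⟨r, rfl⟩ := Nat.exists_eq_add_of_le h
  rw [wd_add, wd_add]
  exact (List.sublist_append_right _ _).trans (List.sublist_append_left _ _)

lemma step_append_right {x y : List Bool} (h : EditStep x y) (z : List Bool) :
    EditStep (x ++ z) (y ++ z) := by
  obtain ⟨u, v, a, b, h⟩ := h
  refine ⟨u, v ++ z, a, b, ?_⟩
  rcases h with ⟨rfl, rfl⟩ | ⟨rfl, rfl⟩ | ⟨rfl, rfl⟩ <;> simp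

lemma step_append_left {x y : List Bool} (h : EditStep x y) (z : List Bool) :
    EditStep (z ++ x) (z ++ y) := by
  obtain ⟨u, v, a, b, h⟩ := h
  refine ⟨z ++ u, v, a, b, ?_⟩
  rcases h with ⟨rfl, rfl⟩ | ⟨rfl, rfl⟩ | ⟨rfl, rfl⟩ <;> simp

lemma ED_append (u v u' v' : List Bool) : ED (u ++ v) (u' ++ v') ≤ ED u u' + ED v v' := by
  obtain ⟨p, h0, hk, hs⟩ := reach_ED u u'
  obtain ⟨q, g0, gk, gs⟩ := reach_ED v v'
  have h1 : Reach (ED u u') (u ++ v) (u' ++ v) :=
    ⟨fun i => p i ++ v, by simp [h0], by simp [hk], fun i hi => step_append_right (hs i hi) v⟩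
  have h2 : Reach (ED v v') (u' ++ v) (u' ++ v') :=
    ⟨fun i => u' ++ q i, by simp [g0], by simp [gk], fun i hi => step_append_left (gs i hi) u'⟩
  exact ED_le_of_reach (h1.trans h2)

lemma ED_wd_le (L : ℕ) (x y : ℕ → Bool) : ED (wd L x) (wd L y) ≤ 2 * L := by
  have := ED_le_of_sublist (List.nil_sublist (wd L x)) (List.nil_sublist (wd L y))
  simp at this
  omega

lemma ED_window {B L j j' : ℕ} (h : j + L ≤ B) (h' : j' + L ≤ B) (x y : ℕ → Bool) :
    ED (wd B x) (wd B y) ≤ ED (wd L (sh j x)) (wd L (sh j' y)) + 2 * (B - L) := by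
  have h1 := ED_le_of_reach (reach_of_sublist (wd_sublist h x))
  have h2 := ED_le_of_reach (reach_of_sublist (wd_sublist h' y)).symm
  have h3 := ED_triangle (wd B x) (wd L (sh j x)) (wd B y)
  have h4 := ED_triangle (wd L (sh j x)) (wd L (sh j' y)) (wd B y)
  simp only [length_wd] at h1 h2
  omega

lemma ED_blocks (L B m : ℕ) (x y : ℕ → Bool) :
    ED (wd (min L (m * B)) x) (wd (min L (m * B)) y) ≤
      ∑ i ∈ range m, ED (wd (min B (L - i * B)) (sh (i * B) x))
        (wd (min B (L - i * B)) (sh (i * B) y)) := by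
  induction m with
  | zero => simp [wd, ED_self]
  | succ m ih =>
    rw [sum_range_succ]
    by_cases h : m * B ≤ L
    · rw [min_eq_right h] at ih
      rw [show min L ((m + 1) * B) = m * B + min B (L - m * B) by rw [add_mul]; omega,
        wd_add, wd_add]
      exact (ED_append _ _ _ _).trans (by omega)
    · rw [min_eq_left (by omega)] at ih
      rw [min_eq_left (by rw [add_mul]; omega)]
      omega

/-- the discrete metric on the first `L` symbols -/
lemma isCut_disc (L : ℕ) :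
    IsCut (fun x y : ℕ → Bool => if wd L x = wd L y then (0 : ℝ) else 1) := by
  have := (isCut_sum (univ : Finset (Fin L → Bool)) (D := fun c (x y : ℕ → Bool) =>
    if decide (wd L x = List.ofFn c) = decide (wd L y = List.ofFn c) then (0 : ℝ) else 1)
    fun c _ => isCut_bool fun x => decide (wd L x = List.ofFn c)).smul (c := 1 / 2) (by norm_num)
  convert this using 3 with x y
  have hx : ∀ x : ℕ → Bool, wd L x = List.ofFn fun i : Fin L => x i := by
    intro x
    apply List.ext_getElem <;> simp [wd]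
  simp only [hx, List.ofFn_inj]
  generalize (fun i : Fin L => x i) = u
  generalize (fun i : Fin L => y i) = v
  by_cases h : u = v
  · simp [h]
  · have : ∀ c, (if decide (u = c) = decide (v = c) then (0 : ℝ) else 1) =
        (if u = c then 1 else 0) + if v = c then 1 else 0 := by
      intro c
      by_cases h1 : u = c <;> by_cases h2 : v = c <;> simp [h1, h2]
      exact absurd (h1.trans h2.symm) h
    simp only [this, sum_add_distrib]
    simp [h]
    norm_num

/-- A cut combination on words of length `L` that moves by at most `α` under one insertion and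
dominates the edit distance up to the factor `β`. -/
def Good (L : ℕ) (α β : ℝ) : Prop :=
  ∃ D : (ℕ → Bool) → (ℕ → Bool) → ℝ, IsCut D ∧ (∀ x y, (∀ i < L, x i = y i) → D x y = 0) ∧
    (∀ p x y, Mv p x y → D x y ≤ α) ∧ ∀ x y, (ED (wd L x) (wd L y) : ℝ) ≤ β * D x y

lemma good_base {L : ℕ} (hL : L ≤ 1) {α : ℝ} (hα : 1 ≤ α) : Good L α 2 := by
  refine ⟨_, isCut_disc L, fun x y h => by simp [wd_congr h], fun p x y _ => ?_, fun x y => ?_⟩
  · split_ifs <;> linarith
  · split_ifs with h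
    · simp [h, ED_self]
    · have := ED_wd_le L x y
      have : ED (wd L x) (wd L y) ≤ 2 := by omega
      simpa using (by exact_mod_cast this : (ED (wd L x) (wd L y) : ℝ) ≤ 2)

/-- one scale of one block -/
lemma scale {B : ℕ} {α β : ℝ} (hβ : 0 < β) (s : ℕ) (hs : 0 < s) (h : Good (B + 1 - s) α β) :
    ∃ E : (ℕ → Bool) → (ℕ → Bool) → ℝ, IsCut E ∧ (∀ x y, (∀ i < B, x i = y i) → E x y = 0) ∧
      (∀ p x y, Mv p x y → E x y ≤ 2 * α) ∧ (∀ x y, Mv 0 x y → E x y ≤ 2) ∧
      ∀ x y, s ≤ B → s * (2 + β * Real.log (2 * s)) ≤ (ED (wd B x) (wd B y) : ℝ) →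
        (s : ℝ) / 2 ≤ E x y := by
  obtain ⟨D, hD, h0, h1, h2⟩ := h
  obtain ⟨E, hE, g1, g2⟩ := hD.emd s hs (fun x (j : Fin s) => sh j x)
  have hs' : (0 : ℝ) < s := by exact_mod_cast hs
  refine ⟨E, hE, fun x y hxy => le_antisymm ?_ (hE.nonneg _ _), fun p x y hxy => ?_,
    fun x y hxy => ?_, fun x y hB hxy => g2 x y fun j j' => ?_⟩
  · refine (g1 x y 1).trans (le_of_eq ?_)
    rw [sum_eq_zero, mul_zero]
    intro j _
    rw [h0 (sh j x) (sh ((1 : Equiv.Perm (Fin s)) j) y)
      fun i hi => hxy (j + i) (by have := j.2; omega)]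
    simp
  · refine (g1 x y 1).trans (mul_le_mul_of_nonneg_left ?_ (by norm_num))
    calc ∑ j : Fin s, min 1 (D (sh j x) (sh ((1 : Equiv.Perm (Fin s)) j) y) / s)
        ≤ ∑ _j : Fin s, α / s := sum_le_sum fun j _ => (min_le_right _ _).trans
          (div_le_div_of_nonneg_right (h1 _ _ _ (hxy.sh j)) hs'.le)
      _ = α := by simp; field_simp
  · obtain ⟨s, rfl⟩ : ∃ t, s = t + 1 := ⟨s - 1, by omega⟩
    refine (g1 x y (finRotate (s + 1))).trans ?_
    rw [Fin.sum_univ_castSucc, sum_eq_zero, zero_add]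
    · linarith [min_le_left 1 (D (sh (Fin.last s) x) (sh (finRotate (s + 1) (Fin.last s)) y) /
        ((s + 1 : ℕ) : ℝ))]
    · intro j _
      have e : sh (finRotate (s + 1) j.castSucc) y = sh j.castSucc x := by
        funext i
        rw [coe_finRotate_of_ne_last (Fin.castSucc_ne_last j)]
        simp only [sh]
        rw [← hxy.2 _ (Nat.zero_le _)]
        congr 1
        omega
      rw [e, hD.self]
      simp
  · have h3 := ED_window (B := B) (L := B + 1 - s) (j := j) (j' := j')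
      (by have := j.2; omega) (by have := j'.2; omega) x y
    have h4 : ED (wd B x) (wd B y) ≤
        ED (wd (B + 1 - s) (sh j x)) (wd (B + 1 - s) (sh j' y)) + 2 * s := by omega
    have h5 : (ED (wd B x) (wd B y) : ℝ) ≤
        ED (wd (B + 1 - s) (sh j x)) (wd (B + 1 - s) (sh j' y)) + 2 * s := by exact_mod_cast h4
    have h6 := h2 (sh j x) (sh j' y)
    refine le_of_mul_le_mul_left ?_ hβ
    nlinarith

/-- all scales of one block -/
lemma block {B M : ℕ} {α β : ℝ} (hβ : 0 < β) (hB : B < 2 ^ M) (h : ∀ L ≤ B, Good L α β) :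
    ∃ F : (ℕ → Bool) → (ℕ → Bool) → ℝ, IsCut F ∧ (∀ x y, (∀ i < B, x i = y i) → F x y = 0) ∧
      (∀ p x y, Mv p x y → F x y ≤ 1 + M * (2 * α)) ∧ (∀ x y, Mv 0 x y → F x y ≤ 1 + M * 2) ∧
      ∀ x y, (ED (wd B x) (wd B y) : ℝ) ≤ 4 * (2 + β * (M + 1)) * F x y := by
  have hk : ∀ k : ℕ, B + 1 - 2 ^ k ≤ B := fun k => by
    have := Nat.one_le_two_pow (n := k); omega
  choose E hE e0 e1 e2 e3 using fun k : ℕ => scale hβ (2 ^ k) (by positivity) (h _ (hk k))
  have hd : ∀ x y : ℕ → Bool, (if wd B x = wd B y then (0 : ℝ) else 1) ≤ 1 := fun x y => by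
    split_ifs <;> norm_num
  refine ⟨fun x y => (if wd B x = wd B y then (0 : ℝ) else 1) + ∑ k ∈ range M, E k x y,
    (isCut_disc B).add (isCut_sum _ fun k _ => hE k), fun x y hxy => ?_, fun p x y hxy => ?_,
    fun x y hxy => ?_, fun x y => ?_⟩
  · simp [wd_congr hxy, fun k => e0 k x y hxy]
  · refine add_le_add (hd x y) ?_
    simpa using sum_le_card_nsmul (range M) _ _ fun k _ => e1 k p x y hxy
  · refine add_le_add (hd x y) ?_
    simpa using sum_le_card_nsmul (range M) _ _ fun k _ => e2 k x y hxy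
  · have hsum : 0 ≤ ∑ k ∈ range M, E k x y := sum_nonneg fun k _ => (hE k).nonneg _ _
    obtain ⟨γ, hγ⟩ : ∃ γ, γ = 2 + β * (M + 1) := ⟨_, rfl⟩
    have hγ2 : 2 ≤ γ := by rw [hγ]; have : 0 ≤ β * (M + 1) := by positivity
                           linarith
    rw [← hγ]
    beta_reduce
    split_ifs with hxy
    · rw [hxy, ED_self, Nat.cast_zero]
      positivity
    by_cases hsmall : (ED (wd B x) (wd B y) : ℝ) < γ
    · nlinarith
    have hex : ∃ k : ℕ, (ED (wd B x) (wd B y) : ℝ) < 2 ^ (k + 1) * γ := by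
      refine ⟨ED (wd B x) (wd B y), ?_⟩
      have h1 : ED (wd B x) (wd B y) < 2 ^ (ED (wd B x) (wd B y) + 1) :=
        Nat.lt_two_pow_self.trans (Nat.pow_lt_pow_right (by norm_num) (by omega))
      have h2 : (ED (wd B x) (wd B y) : ℝ) < 2 ^ (ED (wd B x) (wd B y) + 1) := by
        exact_mod_cast h1
      have h3 : (0 : ℝ) < 2 ^ (ED (wd B x) (wd B y) + 1) := by positivity
      nlinarith
    classical
    obtain ⟨k, hk1, hk2⟩ : ∃ k : ℕ, (ED (wd B x) (wd B y) : ℝ) < 2 ^ (k + 1) * γ ∧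
        2 ^ k * γ ≤ (ED (wd B x) (wd B y) : ℝ) := by
      refine ⟨Nat.find hex, Nat.find_spec hex, ?_⟩
      rcases Nat.eq_zero_or_pos (Nat.find hex) with h0 | h0
      · rw [h0]; simpa using hsmall
      · have := Nat.find_min hex (m := Nat.find hex - 1) (by omega)
        rw [show Nat.find hex - 1 + 1 = Nat.find hex by omega] at this
        exact not_lt.1 this
    have hp : (0 : ℝ) < 2 ^ k := by positivity
    have hkB : 2 ^ k ≤ B := by
      have h1 : (ED (wd B x) (wd B y) : ℝ) ≤ 2 * B := by exact_mod_cast ED_wd_le B x y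
      have h2 : (2 : ℝ) ^ k ≤ B := by nlinarith
      exact_mod_cast h2
    have hkM : k < M := (Nat.pow_lt_pow_iff_right (by norm_num)).1 (hkB.trans_lt hB)
    have hlog : Real.log (2 * ((2 ^ k : ℕ) : ℝ)) ≤ M + 1 := by
      have : (2 * ((2 ^ k : ℕ) : ℝ)) = 2 ^ (k + 1) := by push_cast; ring
      rw [this, Real.log_pow]
      have h1 : Real.log 2 ≤ 1 := by have := Real.log_two_lt_d9; linarith
      have h2 : ((k + 1 : ℕ) : ℝ) ≤ M + 1 := by exact_mod_cast (by omega : k + 1 ≤ M + 1)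
      calc ((k + 1 : ℕ) : ℝ) * Real.log 2 ≤ ((k + 1 : ℕ) : ℝ) * 1 := by gcongr
        _ ≤ _ := by linarith
    have h3 := e3 k x y hkB (by
      refine le_trans ?_ hk2
      rw [hγ]
      push_cast at hlog ⊢
      gcongr)
    have h4 : E k x y ≤ ∑ k ∈ range M, E k x y :=
      single_le_sum (f := fun k => E k x y) (fun k _ => (hE k).nonneg _ _) (mem_range.2 hkM)
    push_cast at h3
    rw [pow_succ] at hk1
    nlinarith

/-- the recursion step -/
lemma good_step {L B b M : ℕ} {α β : ℝ} (hα : 0 ≤ α) (hβ : 0 < β) (hB : 0 < B) (hL : L ≤ b * B)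
    (hM : L < 2 ^ M) (h : ∀ L' ≤ B, L' < 2 ^ M → Good L' α β) :
    Good L (b * (1 + M * 2) + (1 + M * (2 * α))) (4 * (2 + β * (M + 1))) := by
  choose F hF f0 f1 f2 f3 using fun i : ℕ => block (B := min B (L - i * B)) (M := M) hβ
    (by omega) fun L' hL' => h L' (by omega) (by omega)
  refine ⟨fun x y => ∑ i ∈ range b, F i (sh (i * B) x) (sh (i * B) y),
    isCut_sum _ fun i _ => (hF i).comp _, fun x y hxy => ?_, fun p x y hxy => ?_, fun x y => ?_⟩
  · exact sum_eq_zero fun i _ => f0 i _ _ fun j hj => hxy _ (by omega)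
  · have h1 : (0 : ℝ) ≤ 1 + M * 2 := by positivity
    have h2 : (0 : ℝ) ≤ 1 + M * (2 * α) := by positivity
    calc ∑ i ∈ range b, F i (sh (i * B) x) (sh (i * B) y)
        ≤ ∑ i ∈ range b, ((1 + M * 2 : ℝ) + if p / B = i then 1 + M * (2 * α) else 0) := by
          refine sum_le_sum fun i _ => ?_
          rcases lt_trichotomy i (p / B) with hi | hi | hi
          · have : (i + 1) * B ≤ p := (Nat.le_div_iff_mul_le hB).1 hi
            rw [add_mul] at this
            rw [f0 i (sh (i * B) x) (sh (i * B) y) fun j hj => hxy.1 (i * B + j) (by omega),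
              if_neg hi.ne']
            linarith
          · rw [if_pos hi.symm]
            linarith [f1 i _ _ _ (hxy.sh (i * B))]
          · have : p < i * B := (Nat.div_lt_iff_lt_mul hB).1 hi
            have h3 := hxy.sh (i * B)
            rw [show p - i * B = 0 by omega] at h3
            rw [if_neg hi.ne]
            linarith [f2 i _ _ h3]
      _ ≤ _ := by
          rw [sum_add_distrib, sum_ite_eq]
          simp only [sum_const, card_range, nsmul_eq_mul]
          split_ifs <;> linarith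
  · have h1 := ED_blocks L B b x y
    rw [min_eq_left hL] at h1
    rw [mul_sum]
    refine ((Nat.cast_le (α := ℝ)).2 h1).trans ?_
    push_cast
    exact sum_le_sum fun i _ => f3 i _ _

lemma Good.mono {L : ℕ} {α β α' β' : ℝ} (h : Good L α β) (h1 : α ≤ α') (h2 : β ≤ β') :
    Good L α' β' := by
  obtain ⟨D, hD, e0, e1, e2⟩ := h
  exact ⟨D, hD, e0, fun p x y h => (e1 p x y h).trans h1,
    fun x y => (e2 x y).trans (mul_le_mul_of_nonneg_right h2 (hD.nonneg _ _))⟩

lemma good_all {b M : ℕ} (hb : 1 ≤ b) (hM : 1 ≤ M) (h : ℕ) :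
    ∀ L ≤ b ^ h, L < 2 ^ M → Good L (b * (6 * M) ^ h) (2 * (12 * M) ^ h) := by
  have hb' : (1 : ℝ) ≤ b := by exact_mod_cast hb
  have hM' : (1 : ℝ) ≤ M := by exact_mod_cast hM
  induction h with
  | zero => intro L hL _; simpa using good_base (by simpa using hL) hb'
  | succ h ih =>
    intro L hL hL'
    have h1 : (1 : ℝ) ≤ (6 * M) ^ h := one_le_pow₀ (by linarith)
    have h2 : (1 : ℝ) ≤ (12 * M) ^ h := one_le_pow₀ (by linarith)
    refine (good_step (b := b) (by positivity) (by positivity) (by positivity)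
      (by rwa [pow_succ'] at hL) hL' ih).mono ?_ ?_
    · rw [pow_succ]
      generalize ((6 : ℝ) * M) ^ h = t at h1
      have h3 : (1 : ℝ) ≤ b * M := one_le_mul_of_one_le_of_one_le hb' hM'
      have h4 : (b : ℝ) * 1 ≤ b * M := by gcongr
      have h5 : (b : ℝ) * M * 1 ≤ b * M * t := by gcongr
      nlinarith
    · rw [pow_succ]
      generalize ((12 : ℝ) * M) ^ h = t at h2
      have h3 : (1 : ℝ) ≤ t * M := one_le_mul_of_one_le_of_one_le h2 hM'
      have h4 : t * 1 ≤ t * M := by gcongr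
      nlinarith

/-- the infinite word obtained by padding -/
def sq (w : List Bool) : ℕ → Bool := fun i => w.getD i false

lemma mv_sq (u v : List Bool) (a : Bool) : Mv u.length (sq (u ++ v)) (sq (u ++ a :: v)) := by
  refine ⟨fun i hi => ?_, fun i hi => ?_⟩
  · simp [sq, List.getElem?_append_left hi]
  · simp only [sq, List.getD_eq_getElem?_getD]
    rw [List.getElem?_append_right hi, List.getElem?_append_right (by omega),
      show i + 1 - u.length = (i - u.length) + 1 by omega]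
    simp

lemma wd_sq {n : ℕ} (x : Fin n → Bool) : wd n (sq (List.ofFn x)) = List.ofFn x := by
  apply List.ext_getElem
  · simp
  · intro i h1 h2
    have : i < n := by simpa using h1
    simp [wd, sq, this]

lemma c1_le_of_good {n : ℕ} {α β : ℝ} (hα : 0 ≤ α) (hβ : 0 ≤ β) (h : Good n α β) :
    c1 (Fin n → Bool) (fun x y => (ED (List.ofFn x) (List.ofFn y) : ℝ)) ≤ 2 * α * β := by
  obtain ⟨D, hD, -, e1, e2⟩ := h
  have hstep : ∀ u v, EditStep u v → D (sq u) (sq v) ≤ 2 * α := by
    rintro _ _ ⟨u, v, a, b, ⟨rfl, rfl⟩ | ⟨rfl, rfl⟩ | ⟨rfl, rfl⟩⟩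
    · linarith [e1 _ _ _ (mv_sq u v a)]
    · rw [hD.symm]
      linarith [e1 _ _ _ (mv_sq u v a)]
    · have := hD.triangle (sq (u ++ a :: v)) (sq (u ++ v)) (sq (u ++ b :: v))
      rw [hD.symm _ (sq (u ++ v))] at this
      linarith [e1 _ _ _ (mv_sq u v a), e1 _ _ _ (mv_sq u v b)]
  have hreach : ∀ k u v, Reach k u v → D (sq u) (sq v) ≤ 2 * α * k := by
    intro k
    induction k with
    | zero => intro u v h; rw [h.eq_of_zero, hD.self]; simp
    | succ k ih =>
      intro u v h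
      obtain ⟨w, hw, hr⟩ := h.induct
      have := hD.triangle (sq u) (sq w) (sq v)
      push_cast
      linarith [hstep _ _ hw, ih _ _ hr]
  refine c1_le _ (fun x y => D (sq (List.ofFn x)) (sq (List.ofFn y))) (hD.comp _)
    (fun x y hxy => ?_) (by positivity) hβ (fun x y => hreach _ _ _ (reach_ED _ _)) fun x y => ?_
  · have : ED (List.ofFn x) (List.ofFn y) ≠ 0 :=
      fun e => hxy (List.ofFn_injective (eq_of_ED_eq_zero e))
    positivity
  · have := e2 (sq (List.ofFn x)) (sq (List.ofFn y))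
    rwa [wd_sq, wd_sq] at this

theorem upper_bound : ∃ N₀ : ℕ, ∀ n ≥ N₀,
    c1 (Fin n → Bool) (fun x y => (ED (List.ofFn x) (List.ofFn y) : ℝ)) ≤
      Real.exp (22 * Real.sqrt (Real.log n * Real.log (Real.log n))) := by
  refine ⟨⌈Real.exp (Real.exp 1)⌉₊, fun n hn => ?_⟩
  have hn' : Real.exp (Real.exp 1) ≤ n := Nat.ceil_le.1 hn
  have hn0 : (0 : ℝ) < n := (Real.exp_pos _).trans_le hn'
  obtain ⟨l, hl⟩ : ∃ l, l = Real.log n := ⟨_, rfl⟩
  obtain ⟨m, hm⟩ : ∃ m, m = Real.log l := ⟨_, rfl⟩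
  rw [← hl, ← hm]
  have hl1 : Real.exp 1 ≤ l := by rw [hl]; exact (Real.le_log_iff_exp_le hn0).2 hn'
  have hl0 : 0 < l := (Real.exp_pos _).trans_le hl1
  have hm1 : 1 ≤ m := by rw [hm]; exact (Real.le_log_iff_exp_le hl0).2 hl1
  have hml : m ≤ l := by rw [hm]; linarith [Real.log_le_sub_one_of_pos hl0]
  obtain ⟨q, hq⟩ : ∃ q, q = Real.sqrt (l / m) := ⟨_, rfl⟩
  have hq1 : 1 ≤ q := by
    rw [hq, Real.one_le_sqrt, one_le_div (by linarith)]; exact hml
  have hq2 : q * q * m = l := by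
    rw [hq, Real.mul_self_sqrt (by positivity)]; field_simp
  have hR : Real.sqrt (l * m) = q * m := by
    rw [Real.sqrt_eq_iff_mul_self_eq (by positivity) (by positivity), ← hq2]; ring
  rw [hR]
  have hR1 : 1 ≤ q * m := one_le_mul_of_one_le_of_one_le hq1 hm1
  obtain ⟨h, hh⟩ : ∃ h, h = ⌈q⌉₊ := ⟨_, rfl⟩
  obtain ⟨b, hb⟩ : ∃ b, b = ⌈Real.exp (q * m)⌉₊ := ⟨_, rfl⟩
  obtain ⟨M, hM⟩ : ∃ M, M = Nat.log 2 n + 1 := ⟨_, rfl⟩
  have hh1 : q ≤ h := hh ▸ Nat.le_ceil q
  have hh2 : (h : ℝ) ≤ 2 * q := by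
    have := Nat.ceil_lt_add_one (a := q) (by linarith)
    rw [← hh] at this; linarith
  have he1 : 1 ≤ Real.exp (q * m) := Real.one_le_exp (by linarith)
  have hb1 : Real.exp (q * m) ≤ b := hb ▸ Nat.le_ceil _
  have hb2 : (b : ℝ) ≤ 2 * Real.exp (q * m) := by
    have := Nat.ceil_lt_add_one (a := Real.exp (q * m)) (by linarith)
    rw [← hb] at this; linarith
  have hb3 : 1 ≤ b := by exact_mod_cast he1.trans hb1
  have hnb : n ≤ b ^ h := by
    have : (n : ℝ) ≤ b ^ h := by
      calc (n : ℝ) = Real.exp l := by rw [hl, Real.exp_log hn0]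
        _ ≤ Real.exp (h * (q * m)) := by
          apply Real.exp_le_exp.2
          rw [← hq2, mul_assoc]
          gcongr
        _ = Real.exp (q * m) ^ h := Real.exp_nat_mul _ _
        _ ≤ _ := by gcongr
    exact_mod_cast this
  have hnM : n < 2 ^ M := hM ▸ Nat.lt_pow_succ_log_self (by norm_num) n
  have hM3 : (M : ℝ) ≤ 3 * l := by
    have h1 : 2 ^ Nat.log 2 n ≤ n := Nat.pow_log_le_self 2 (by exact_mod_cast hn0.ne')
    have h2 : (2 : ℝ) ^ Nat.log 2 n ≤ n := by exact_mod_cast h1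
    have h3 := Real.log_le_log (by positivity) h2
    rw [Real.log_pow, ← hl] at h3
    have h4 := Real.log_two_gt_d9
    have h5 : (0 : ℝ) ≤ Nat.log 2 n := Nat.cast_nonneg _
    rw [hM]
    push_cast
    nlinarith
  have hM4 : (6 * M : ℝ) * (12 * M) ≤ Real.exp (9 * m) := by
    have h1 : (648 : ℝ) ≤ Real.exp 7 := by
      have h2 : (2.7 : ℝ) ≤ Real.exp 1 := by have := Real.exp_one_gt_d9; linarith
      calc (648 : ℝ) ≤ 2.7 ^ 7 := by norm_num
        _ ≤ Real.exp 1 ^ 7 := by gcongr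
        _ = _ := by rw [← Real.exp_nat_mul]; norm_num
    have h2 : Real.exp m = l := by rw [hm, Real.exp_log hl0]
    calc (6 * M : ℝ) * (12 * M) ≤ (6 * (3 * l)) * (12 * (3 * l)) := by gcongr
      _ = 648 * (l * l) := by ring
      _ ≤ Real.exp 7 * (l * l) := by gcongr
      _ = Real.exp (7 + (m + m)) := by rw [Real.exp_add, Real.exp_add, h2]
      _ ≤ _ := Real.exp_le_exp.2 (by linarith)
  have h8 : (8 : ℝ) ≤ Real.exp (3 * (q * m)) := by
    have h2 : (2 : ℝ) ≤ Real.exp (q * m) := by linarith [Real.add_one_le_exp (q * m)]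
    calc (8 : ℝ) = 2 ^ 3 := by norm_num
      _ ≤ Real.exp (q * m) ^ 3 := by gcongr
      _ = _ := by rw [← Real.exp_nat_mul]; norm_num
  refine (c1_le_of_good (by positivity) (by positivity)
    (good_all hb3 (by omega) h n hnb hnM)).trans ?_
  calc 2 * (b * (6 * (M : ℝ)) ^ h) * (2 * (12 * M) ^ h) = 4 * b * ((6 * M) * (12 * M)) ^ h := by
        rw [mul_pow (6 * (M : ℝ))]; ring
    _ ≤ 4 * (2 * Real.exp (q * m)) * Real.exp (9 * m) ^ h := by gcongr
    _ = 8 * Real.exp (q * m + h * (9 * m)) := by rw [Real.exp_add, Real.exp_nat_mul]; ring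
    _ ≤ Real.exp (3 * (q * m)) * Real.exp (q * m + 2 * q * (9 * m)) := by gcongr
    _ = _ := by rw [← Real.exp_add]; congr 1; ring

end Vale.Agent.P238.Up
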