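import Mathlib

namespace Vale.Agent.P238

open List

section decomp
variable {α : Type}

/-- Splitting a common subsequence along the super-blocks of the first word. -/
lemma decomp (W y₀ : List α) (E : ℕ) (L : List (List α))
    (hL : ∀ S ∈ L, ∀ y', y' <:+: y₀ → ∀ w, w <+ S → w <+ y' →
      2 * w.length + E ≤ S.length + y'.length) :
    ∀ y, y <:+: y₀ → ∀ w, w <+ L.flatMap (· ++ W) → w <+ y →
      2 * w.length + L.length * E ≤ (L.flatMap (· ++ W)).length + y.length := by
  induction L with
  | nil =>
    intro y _ w hw _
    simp at hw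
    simp [hw]
  | cons S L ih =>
    intro y hy w hw hwy
    rw [flatMap_cons] at hw ⊢
    obtain ⟨w₁₂, w₃, rfl, h₁₂, h₃⟩ := sublist_append_iff.1 hw
    obtain ⟨w₁, w₂, rfl, h₁, h₂⟩ := sublist_append_iff.1 h₁₂
    obtain ⟨y₁₂, y₃, rfl, g₁₂, g₃⟩ := append_sublist_iff.1 hwy
    obtain ⟨y₁, y₂, rfl, g₁, g₂⟩ := append_sublist_iff.1 g₁₂
    have i₁ : y₁ <:+: y₀ := ((prefix_append y₁ y₂).isInfix.trans (prefix_append _ y₃).isInfix).trans hy
    have i₃ : y₃ <:+: y₀ := (suffix_append _ y₃).isInfix.trans hy
    have a₁ := hL S (by simp) y₁ i₁ w₁ h₁ g₁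
    have a₃ := ih (fun S hS => hL S (by simp [hS])) y₃ i₃ w₃ h₃ g₃
    have b₂ := h₂.length_le
    have c₂ := g₂.length_le
    simp only [length_append, length_cons] at *
    rw [add_mul]
    omega

end decomp

section wall
variable {β : Type}

lemma sublist_filter_of_all {w l : List (Option β)} (hw : ∀ c ∈ w, c.isSome) (h : w <+ l) :
    w <+ l.filter Option.isSome := by
  have := h.filter Option.isSome
  rwa [filter_eq_self.2 hw] at this

lemma wall_left {w l : List (Option β)} {L : ℕ} (hw : ∀ c ∈ w, c.isSome)
    (h : w <+ l ++ replicate L none) : w <+ l := by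
  have := sublist_filter_of_all hw h
  rw [filter_append] at this
  simp only [filter_replicate, Option.isSome_none, Bool.false_eq_true, ↓reduceIte,
    append_nil] at this
  exact this.trans filter_sublist

lemma wall_len {w l₁ l₂ : List (Option β)} {L : ℕ} (hw : ∀ c ∈ w, c.isSome)
    (h : w <+ l₁ ++ replicate L none ++ l₂) :
    w.length + L ≤ (l₁ ++ replicate L none ++ l₂).length := by
  have := sublist_filter_of_all hw h
  rw [filter_append, filter_append] at this
  simp only [filter_replicate, Option.isSome_none, Bool.false_eq_true, ↓reduceIte,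
    append_nil] at this
  have h1 := this.length_le
  have h2 := length_filter_le Option.isSome l₁
  have h3 := length_filter_le Option.isSome l₂
  simp only [length_append, length_replicate] at *
  omega

lemma wall_pre {L : ℕ} (Ts : List (List (Option β))) {w l : List (Option β)}
    (hw : ∀ c ∈ w, c.isSome) (hl : l <+: Ts.flatMap (· ++ replicate L none)) (h : w <+ l) :
    w = [] ∨ (∃ T ∈ Ts, w <+ T) ∨ w.length + L ≤ l.length := by
  cases Ts with
  | nil =>
    simp at hl
    subst hl
    exact Or.inl (by simpa using h)
  | cons T Ts =>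
    rw [flatMap_cons] at hl
    rcases prefix_or_prefix_of_prefix hl (prefix_append _ _) with h1 | ⟨t, rfl⟩
    · exact Or.inr (Or.inl ⟨T, by simp, wall_left hw (h.trans h1.sublist)⟩)
    · exact Or.inr (Or.inr (wall_len hw h))

lemma wall_inf {L : ℕ} (Ts : List (List (Option β))) {w l : List (Option β)}
    (hw : ∀ c ∈ w, c.isSome) (hl : l <:+: Ts.flatMap (· ++ replicate L none)) (h : w <+ l) :
    w = [] ∨ (∃ T ∈ Ts, w <+ T) ∨ w.length + L ≤ l.length := by
  induction Ts with
  | nil =>
    simp at hl
    subst hl
    exact Or.inl (by simpa using h)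
  | cons T Ts ih =>
    rw [flatMap_cons] at hl
    rcases infix_append_iff.1 hl with h1 | h1 | ⟨l₁, l₂, rfl, h1, h2⟩
    · exact Or.inr (Or.inl ⟨T, by simp, wall_left hw (h.trans h1.sublist)⟩)
    · rcases ih h1 with h2 | ⟨T', hT', h2⟩ | h2
      · exact Or.inl h2
      · exact Or.inr (Or.inl ⟨T', by simp [hT'], h2⟩)
      · exact Or.inr (Or.inr h2)
    · rcases suffix_or_suffix_of_suffix h1 (suffix_append _ _) with h3 | ⟨t, rfl⟩
      · have h4 : w <+ l₂ := by
          have := sublist_filter_of_all hw h
          rw [filter_append] at this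
          have h5 : l₁.filter Option.isSome = [] := by
            rw [filter_eq_nil_iff]
            intro a ha
            have := h3.sublist.subset ha
            rw [mem_replicate] at this
            simp [this.2]
          rw [h5, nil_append] at this
          exact this.trans filter_sublist
        rcases wall_pre Ts hw h2 h4 with h5 | ⟨T', hT', h5⟩ | h5
        · exact Or.inl h5
        · exact Or.inr (Or.inl ⟨T', by simp [hT'], h5⟩)
        · refine Or.inr (Or.inr ?_)
          simp only [length_append]; omega
      · exact Or.inr (Or.inr (wall_len hw h))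

end wall

section tags
variable {κ σ : Type} [DecidableEq κ]

/-- The concatenation of the tagged blocks. -/
def tagged (ks : List κ) (B : κ → List σ) : List (Option (κ × σ)) :=
  ks.flatMap fun k => (B k).map fun c => some (k, c)

/-- The letters with a given tag. -/
def untag (k : κ) (w : List (Option (κ × σ))) : List σ :=
  w.filterMap fun c => c.bind fun p => if p.1 = k then some p.2 else none

lemma untag_append (k : κ) (w w' : List (Option (κ × σ))) :
    untag k (w ++ w') = untag k w ++ untag k w' := by simp [untag]

lemma untag_map_self (k : κ) (l : List σ) : untag k (l.map fun c => some (k, c)) = l := by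
  simp [untag, filterMap_map]

lemma untag_map_ne {k k' : κ} (h : k' ≠ k) (l : List σ) :
    untag k (l.map fun c => some (k', c)) = [] := by
  simp [untag, filterMap_map, h]

lemma untag_tagged_not_mem {ks : List κ} {k : κ} (h : k ∉ ks) (B : κ → List σ) :
    untag k (tagged ks B) = [] := by
  induction ks with
  | nil => simp [tagged, untag]
  | cons a ks ih =>
    simp only [mem_cons, not_or] at h
    have := ih h.2
    simp only [tagged] at this ⊢
    rw [flatMap_cons, untag_append, this, untag_map_ne (Ne.symm h.1)]
    simp

lemma untag_tagged {ks : List κ} (hn : ks.Nodup) {k : κ} (h : k ∈ ks) (B : κ → List σ) :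
    untag k (tagged ks B) = B k := by
  induction ks with
  | nil => simp at h
  | cons a ks ih =>
    rw [nodup_cons] at hn
    have e : tagged (a :: ks) B = (B a).map (fun c => some (a, c)) ++ tagged ks B := by
      simp [tagged]
    rw [e, untag_append]
    rcases mem_cons.1 h with rfl | h
    · rw [untag_map_self, untag_tagged_not_mem hn.1]; simp
    · have : a ≠ k := fun e => hn.1 (e ▸ h)
      rw [untag_map_ne this, ih hn.2 h]; simp

lemma untag_sublist (k : κ) {w w' : List (Option (κ × σ))} (h : w <+ w') :
    untag k w <+ untag k w' := h.filterMap _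

lemma length_eq_sum_untag [Fintype κ] (w : List (Option (κ × σ))) (hw : ∀ c ∈ w, c.isSome) :
    w.length = ∑ k : κ, (untag k w).length := by
  induction w with
  | nil => simp [untag]
  | cons c w ih =>
    have hc := hw c (by simp)
    obtain ⟨⟨k₀, s⟩, rfl⟩ := Option.isSome_iff_exists.1 hc
    have e : ∀ k, (untag k (some (k₀, s) :: w)).length =
        (if k₀ = k then 1 else 0) + (untag k w).length := by
      intro k
      by_cases h : k₀ = k <;> simp [untag, filterMap_cons, h, add_comm]
    simp_rw [e]
    rw [Finset.sum_add_distrib, ← ih (fun c hc => hw c (by simp [hc]))]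
    simp [add_comm]

omit [DecidableEq κ] in
lemma tagged_isSome (ks : List κ) (B : κ → List σ) : ∀ c ∈ tagged ks B, c.isSome := by
  intro c hc
  simp only [tagged, mem_flatMap, mem_map] at hc
  obtain ⟨k, -, s, -, rfl⟩ := hc
  rfl

omit [DecidableEq κ] in
lemma tagged_sublist (ks : List κ) {B B' : κ → List σ} (h : ∀ k, B k <+ B' k) :
    tagged ks B <+ tagged ks B' :=
  Sublist.flatMap_right _ fun k _ => (h k).map _

lemma length_tagged {K : ℕ} (B : Fin K → List σ) :
    (tagged (finRange K) B).length = ∑ k, (B k).length := by
  rw [length_eq_sum_untag _ (tagged_isSome _ _)]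
  exact Finset.sum_congr rfl fun k _ => by rw [untag_tagged (nodup_finRange K) (mem_finRange k)]

lemma common_tagged {K : ℕ} (B B' : Fin K → List σ) (b : Fin K → ℕ)
    (hb : ∀ k v, v <+ B k → v <+ B' k → v.length ≤ b k) {w : List (Option (Fin K × σ))}
    (h : w <+ tagged (finRange K) B) (h' : w <+ tagged (finRange K) B') :
    w.length ≤ ∑ k, b k := by
  rw [length_eq_sum_untag w fun c hc => tagged_isSome _ _ c (h.subset hc)]
  refine Finset.sum_le_sum fun k _ => hb k _ ?_ ?_
  · simpa [untag_tagged (nodup_finRange K) (mem_finRange k)] using untag_sublist k h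
  · simpa [untag_tagged (nodup_finRange K) (mem_finRange k)] using untag_sublist k h'

end tags

section code

/-- The body of a code word: no two consecutive ones, ends with zero. -/
def body : List Bool → List Bool
  | [] => [false]
  | b :: l => false :: b :: body l

/-- A comma-free code word. -/
def cw (l : List Bool) : List Bool := true :: true :: body l

lemma length_body (l : List Bool) : (body l).length = 2 * l.length + 1 := by
  induction l with
  | nil => rfl
  | cons b l ih => simp [body, ih]; ring

lemma length_cw (l : List Bool) : (cw l).length = 2 * l.length + 3 := by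
  simp [cw, length_body]

lemma body_injective : Function.Injective body := by
  intro l
  induction l with
  | nil => intro l' h; cases l' <;> simp_all [body]
  | cons b l ih =>
    intro l' h
    cases l' with
    | nil => simp [body] at h
    | cons b' l' =>
      simp only [body, cons.injEq, true_and] at h
      rw [h.1, ih h.2]

lemma body_head (l : List Bool) : ∃ t, body l = false :: t := by
  cases l <;> exact ⟨_, rfl⟩

lemma suffix_body (l : List Bool) : ∀ s, s <:+ body l → s ≠ [] → ∀ t r,
    s ++ t ≠ true :: true :: r := by
  induction l with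
  | nil =>
    intro s hs hne t r h
    rcases suffix_cons_iff.1 hs with rfl | h'
    · simp at h
    · exact hne (by simpa using h')
  | cons b l ih =>
    intro s hs hne t r h
    rcases suffix_cons_iff.1 hs with rfl | h'
    · simp at h
    · rcases suffix_cons_iff.1 h' with rfl | h''
      · obtain ⟨u, hu⟩ := body_head l
        rw [hu] at h
        simp at h
      · exact ih s h'' hne t r h

lemma suffix_cw (l : List Bool) (s : List Bool) (hs : s <:+ cw l) (hne : s ≠ []) (t r : List Bool)
    (h : s ++ t = true :: true :: r) : s = cw l := by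
  rcases suffix_cons_iff.1 hs with rfl | h'
  · rfl
  · rcases suffix_cons_iff.1 h' with rfl | h''
    · obtain ⟨u, hu⟩ := body_head l
      rw [hu] at h
      simp at h
    · exact absurd h (suffix_body l s h'' hne t r)

variable {σ : Type} (e : σ → List Bool)

/-- The binary encoding of a word. -/
def enc (x : List σ) : List Bool := x.flatMap fun c => cw (e c)

lemma enc_cons (c : σ) (x : List σ) : enc e (c :: x) = cw (e c) ++ enc e x := by simp [enc]

lemma enc_sublist {x y : List σ} (h : x <+ y) : enc e x <+ enc e y := h.flatMap _

lemma length_enc {r : ℕ} (hr : ∀ c, (e c).length = r) (x : List σ) :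
    (enc e x).length = (2 * r + 3) * x.length := by
  induction x with
  | nil => simp [enc]
  | cons c x ih => rw [enc_cons, length_append, ih, length_cw, hr, length_cons]; ring

lemma comma_free {r : ℕ} (hr : ∀ c, (e c).length = r) (he : Function.Injective e) (a : σ)
    (y : List σ) (t : List Bool) (h : cw (e a) ++ t <:+ enc e y) :
    ∃ y', a :: y' <:+ y ∧ t = enc e y' := by
  induction y with
  | nil => simp [enc, cw] at h
  | cons b y ih =>
    rw [enc_cons] at h
    rcases suffix_or_suffix_of_suffix h (suffix_append _ _) with h1 | ⟨s, hs⟩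
    · obtain ⟨y', h2, h3⟩ := ih h1
      exact ⟨y', h2.trans (suffix_cons _ _), h3⟩
    · by_cases hne : s = []
      · subst hne
        obtain ⟨y', h2, h3⟩ := ih (by rw [← hs]; simp)
        exact ⟨y', h2.trans (suffix_cons _ _), h3⟩
      · rw [← hs] at h
        have h2 : s <:+ cw (e b) := suffix_append_self_iff.1 h
        have h3 : s = cw (e b) := suffix_cw _ s h2 hne (enc e y) _ hs
        subst h3
        have h4 := append_inj hs (by simp [length_cw, hr])
        have h5 : e b = e a := body_injective (by simpa [cw] using h4.1)
        exact ⟨y, by rw [he h5], h4.2.symm⟩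

lemma enc_common {r : ℕ} (hr : ∀ c, (e c).length = r) (he : Function.Injective e) (x : List σ) :
    ∀ (y : List σ) (z w : List Bool), z <:+ enc e y → w <+ enc e x → w <+ z →
      ∃ v, v <+ x ∧ v <+ y ∧
        x.length + 2 * w.length ≤ v.length + (enc e x).length + z.length := by
  induction x with
  | nil =>
    intro y z w _ hw _
    simp [enc] at hw
    exact ⟨[], by simp, by simp, by simp [hw]⟩
  | cons a x ih =>
    intro y z w hz hw hwz
    rw [enc_cons] at hw ⊢
    obtain ⟨w₁, w₂, rfl, h₁, h₂⟩ := sublist_append_iff.1 hw
    obtain ⟨z₁, z₂, rfl, g₁, g₂⟩ := append_sublist_iff.1 hwz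
    have l₁ := h₁.length_le
    have l₂ := g₁.length_le
    by_cases hc : w₁.length = (cw (e a)).length ∧ w₁.length = z₁.length
    · have e₁ : w₁ = cw (e a) := h₁.eq_of_length hc.1
      have e₂ : w₁ = z₁ := g₁.eq_of_length hc.2
      subst e₂
      subst e₁
      obtain ⟨y', hy', rfl⟩ := comma_free e hr he a y z₂ hz
      obtain ⟨v, v₁, v₂, v₃⟩ := ih y' _ w₂ (suffix_refl _) h₂ g₂
      refine ⟨a :: v, v₁.cons_cons a, (v₂.cons_cons a).trans hy'.sublist, ?_⟩
      simp only [length_append, length_cons] at *
      omega
    · obtain ⟨v, v₁, v₂, v₃⟩ := ih y z₂ w₂ ((suffix_append _ _).trans hz) h₂ g₂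
      refine ⟨v, v₁.cons a, v₂, ?_⟩
      simp only [length_append, length_cons] at *
      omega

lemma pad_common (P : List Bool) : ∀ {x y w : List Bool}, w <+ P ++ x → w <+ P ++ y →
    ∃ v, v <+ x ∧ v <+ y ∧ w.length ≤ v.length + P.length := by
  induction P with
  | nil => intro x y w h h'; exact ⟨w, h, h', by simp⟩
  | cons a P ih =>
    intro x y w h h'
    obtain ⟨v, h1, h2, h3⟩ := ih (w := w.tail) (by simpa using h.tail) (by simpa using h'.tail)
    refine ⟨v, h1, h2, ?_⟩
    simp only [length_tail, length_cons] at *
    omega

end code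

end Vale.Agent.P238
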